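import Vale.Agent.P253Z.T2.Asm
import Vale.Agent.P253Z.T2.An
import Vale.Agent.P253Y.Res.Defs

/-!
# P253Y, T3: every point of `M` has an affine neighbourhood. Statements

See notes/P253_T3.md.
-/

open scoped Manifold ContDiff Bundle ENNReal Topology
open Bundle IsManifold MeasureTheory Set Metric Filter Vale.Agent.P253.Mfd
open Vale.Agent.P272.K (Cm Chart)
open Vale.Agent.P253Z Vale.Agent.P253Z.T2
open Vale.Agent.P253Z.VS (ev)
open Vale.Agent.P297Z.Sf (loc)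

noncomputable section

namespace Vale.Agent.P253Y.T3

variable {n : ℕ} {M : Type} [MetricSpace M] [ChartedSpace (Cm n) M]
  {K : Type} [Field K] [Algebra ℂ K]

/-- the value of a polynomial at the elements `z`, `g` of the field -/
def evK (H : Polynomial (Pz n)) (z : Fin n → K) (g : K) : K :=
  H.eval₂ (MvPolynomial.aeval z : Pz n →ₐ[ℂ] K).toRingHom g

/-- the integral closure of the ring of polynomials in `z` -/
def icB (z : Fin n → K) : Subalgebra ℂ K :=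
  (integralClosure (Algebra.adjoin ℂ (range z)) K).restrictScalars ℂ

/-- the elements `z i` of the field are the ratios `s i / s₀` -/
def IsZ {T : ℕ → Submodule ℂ (M → ℂ)} (ff : FF n T K) (s₀ : M → ℂ) (s : Fin n → M → ℂ)
    (z : Fin n → K) : Prop :=
  ∀ y, s₀ y ≠ 0 → ∀ i, z i ∈ ff.O y ∧ ff.val (z i) y = Phi s₀ s y i

/-- `g` generates the integral closure after inverting `P'(g)` -/
structure Gen (z : Fin n → K) (g : K) (P : Polynomial (Pz n)) : Prop where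
  mem : g ∈ icB z
  monic : P.Monic
  irr : Irr P
  root : evK P z g = 0
  gen : ∀ f : K, ∃ d : Pz n, d ≠ 0 ∧ ∃ R, MvPolynomial.aeval z d * f = evK R z g
  cond : ∀ b ∈ icB z, ∃ R, evK P.derivative z g * b = evK R z g

/-- the local rings at the etale points -/
structure Geoy {T : ℕ → Submodule ℂ (M → ℂ)} (ff : FF n T K) (s₀ : M → ℂ) (s : Fin n → M → ℂ)
    (z : Fin n → K) : Prop where
  le : ∀ y, s₀ y ≠ 0 → icB z ≤ ff.O y
  loc : ∀ y, Et s₀ s y → ∀ f ∈ ff.O y, ∃ a ∈ icB z, ∃ b ∈ icB z, ff.val b y ≠ 0 ∧ f * b = a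
  reg : ∀ y, Et s₀ s y → Res.Geo (ff.O y) ∧ Res.Two (ff.O y)
  sel : ∀ x, Et s₀ s x → ∃ g P, Gen z g P ∧ ev P.derivative (Phi s₀ s x) (ff.val g x) ≠ 0

/-- every point has an affine neighbourhood -/
def CH {M : Type} (O : M → Subalgebra ℂ K) : Prop :=
  ∀ x, ∃ A : Subalgebra ℂ K, Algebra.FiniteType ℂ A ∧ IsFractionRing A K ∧
    (∀ (m : Ideal A) (hm : m.IsMaximal), ∃ y, O y = loc A m hm.isPrime) ∧
    ∃ (m : Ideal A) (hm : m.IsMaximal), O x = loc A m hm.isPrime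

variable [RiemannianBundle (fun x : M => TangentSpace 𝓘(ℝ, Cm n) x)] [MeasurableSpace M]

/-- the coordinates -/
structure Co (μ : Measure M) (m : ℕ) (s₀ : M → ℂ) (s : Fin n → M → ℂ) : Prop where
  pos : 1 ≤ m
  h₀ : InH n μ m s₀
  hs : ∀ i, InH n μ m (s i)
  et : ∃ x, Et s₀ s x

variable (n) in
/-- **IMG**: the etale locus covers the variety off a hypersurface -/
def IMG (μ : Measure M) : Prop :=
  ∀ (p : M) (F : Fr n μ p) (m : ℕ) (s₀ : M → ℂ) (s : Fin n → M → ℂ), Co μ m s₀ s →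
    ∀ D : Prim F s₀ s, ∃ Q : Pz n, Q ≠ 0 ∧ Sep D.P Q ∧
      (∀ x, s₀ x ≠ 0 → MvPolynomial.eval (Phi s₀ s x) Q ≠ 0 → D.v x ≠ 0) ∧
      Img s₀ s D.u D.v Q = Var D.P Q

variable (n) in
/-- **EXT**: an algebraic ratio times a polynomial is holomorphic of polynomial growth -/
def EXT (μ : Measure M) : Prop :=
  ∀ (p : M) (F : Fr n μ p) (A : Aff F) (k : ℕ) (a b : M → ℂ) (R : Polynomial (Pz n)),
    IsSec n (-k) a → IsSec n (-k) b → b ≠ 0 → R ≠ 0 →
    (∀ x, A.s₀ x ≠ 0 → b x ≠ 0 → ev R (Phi A.s₀ A.s x) (a x / b x) = 0) →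
    ∃ (c : Pz n) (h : M → ℂ) (C : ℝ) (N : ℕ), c ≠ 0 ∧ ∀ x, A.σ x ≠ 0 →
      (∀ e : Chart n M, Hc e → x ∈ e.source → AnalyticAt ℂ (fun z => h (e.symm z)) (e x)) ∧
      ‖h x‖ ≤ C * (1 + ‖Phi A.s₀ A.s x‖) ^ N ∧
      (b x ≠ 0 → h x = MvPolynomial.eval (Phi A.s₀ A.s x) c * (a x / b x))

variable (n) in
/-- **LAG**: holomorphic functions of polynomial growth on the affine variety are regular -/
def LAG (μ : Measure M) : Prop :=
  ∀ (p : M) (F : Fr n μ p) (A : Aff F) (h : M → ℂ) (C : ℝ) (N : ℕ),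
    (∀ x, A.σ x ≠ 0 →
      (∀ e : Chart n M, Hc e → x ∈ e.source → AnalyticAt ℂ (fun z => h (e.symm z)) (e x)) ∧
      ‖h x‖ ≤ C * (1 + ‖Phi A.s₀ A.s x‖) ^ N) →
    ∃ R : Polynomial (Pz n), ∀ x, A.σ x ≠ 0 →
      MvPolynomial.eval (Phi A.s₀ A.s x) A.Q ^ 2 *
        ev A.P.derivative (Phi A.s₀ A.s x) (A.u x / A.v x) * h x =
        ev R (Phi A.s₀ A.s x) (A.u x / A.v x)

variable (n) in
/-- **ALGK**: a meromorphic function that is algebraic over the coordinates is in the field -/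
def ALGK (μ : Measure M) : Prop :=
  ∀ (p : M) (F : Fr n μ p) (A : Aff F) (K : Type) [Field K] [Algebra ℂ K] (ff : FF n F.Tame K)
    (k : ℕ) (a b : M → ℂ) (R : Polynomial (Pz n)), IsSec n (-k) a → IsSec n (-k) b → b ≠ 0 →
    R ≠ 0 → (∀ x, A.s₀ x ≠ 0 → b x ≠ 0 → ev R (Phi A.s₀ A.s x) (a x / b x) = 0) →
    ∃ f : K, ∀ x, b x ≠ 0 → f ∈ ff.O x ∧ ff.val f x = a x / b x

variable (n) in
/-- **FEQ**: the field does not depend on the frame -/
def FEQ (μ : Measure M) : Prop :=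
  ∀ (p : M) (F : Fr n μ p) (K : Type) [Field K] [Algebra ℂ K] (ff : FF n F.Tame K) (p' : M)
    (F' : Fr n μ p') (k : ℕ), ∀ a ∈ F'.Tame k, ∀ b ∈ F'.Tame k, b ≠ 0 →
    ∃ f : K, ∀ x, b x ≠ 0 → f ∈ ff.O x ∧ ff.val f x = a x / b x

/-- **GEOY**: the local rings -/
def GEOY {M : Type} [MetricSpace M] [ChartedSpace (Cm 2) M]
    [RiemannianBundle (fun x : M => TangentSpace 𝓘(ℝ, Cm 2) x)] [MeasurableSpace M]
    (μ : Measure M) : Prop :=
  ∀ (p : M) (F : Fr 2 μ p) (K : Type) [Field K] [Algebra ℂ K] (ff : FF 2 F.Tame K) (m : ℕ)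
    (s₀ : M → ℂ) (s : Fin 2 → M → ℂ) (z : Fin 2 → K), Co μ m s₀ s → IsZ ff s₀ s z →
    Geoy ff s₀ s z

variable (n) in
/-- **PRIMG**: a generator is a primitive element -/
def PRIMG (μ : Measure M) : Prop :=
  ∀ (p : M) (F : Fr n μ p) (K : Type) [Field K] [Algebra ℂ K] (ff : FF n F.Tame K) (m : ℕ)
    (s₀ : M → ℂ) (s : Fin n → M → ℂ) (z : Fin n → K), Co μ m s₀ s → IsZ ff s₀ s z →
    Geoy ff s₀ s z → ∀ g P, Gen z g P →
    (∀ x y, Et s₀ s x → Et s₀ s y → Phi s₀ s x = Phi s₀ s y → ff.val g x = ff.val g y →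
      ev P.derivative (Phi s₀ s x) (ff.val g x) ≠ 0 → x = y) ∧
    ∃ D : Prim F s₀ s, D.P = P ∧ ∀ x, s₀ x ≠ 0 → D.v x ≠ 0 → D.u x / D.v x = ff.val g x

variable (n) in
/-- **AFFX**: the points of the variety near a given point are points of `M` -/
def AFFX (μ : Measure M) : Prop :=
  ∀ (p : M) (F : Fr n μ p) (K : Type) [Field K] [Algebra ℂ K] (ff : FF n F.Tame K) (m : ℕ)
    (s₀ : M → ℂ) (s : Fin n → M → ℂ) (z : Fin n → K), Co μ m s₀ s → IsZ ff s₀ s z →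
    Geoy ff s₀ s z → ∀ g P, Gen z g P → ∀ x, Et s₀ s x →
    ev P.derivative (Phi s₀ s x) (ff.val g x) ≠ 0 →
    ∃ H : Polynomial (Pz n), ev H (Phi s₀ s x) (ff.val g x) ≠ 0 ∧
      ∀ ζ t, ev P ζ t = 0 → ev P.derivative ζ t ≠ 0 → ev H ζ t ≠ 0 →
        ∃ y, Et s₀ s y ∧ Phi s₀ s y = ζ ∧ ff.val g y = t

variable (n) in
/-- **CHA**: the affine neighbourhood -/
def CHA (μ : Measure M) : Prop :=
  ∀ (p : M) (F : Fr n μ p) (K : Type) [Field K] [Algebra ℂ K] (ff : FF n F.Tame K) (m : ℕ)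
    (s₀ : M → ℂ) (s : Fin n → M → ℂ) (z : Fin n → K), Co μ m s₀ s → IsZ ff s₀ s z →
    Geoy ff s₀ s z → ∀ g P, Gen z g P → ∀ x, Et s₀ s x → ∀ H : Polynomial (Pz n),
    ev P.derivative (Phi s₀ s x) (ff.val g x) ≠ 0 → ev H (Phi s₀ s x) (ff.val g x) ≠ 0 →
    (∀ ζ t, ev P ζ t = 0 → ev P.derivative ζ t ≠ 0 → ev H ζ t ≠ 0 →
      ∃ y, Et s₀ s y ∧ Phi s₀ s y = ζ ∧ ff.val g y = t) →
    ∃ A : Subalgebra ℂ K, Algebra.FiniteType ℂ A ∧ IsFractionRing A K ∧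
      (∀ (I : Ideal A) (hI : I.IsMaximal), ∃ y, ff.O y = loc A I hI.isPrime) ∧
      ∃ (I : Ideal A) (hI : I.IsMaximal), ff.O x = loc A I hI.isPrime

/-- coordinates at a given point -/
theorem exists_co {μ : Measure M} (A : All n μ) (et : ET n M) {p : M} {F : Fr n μ p}
    (ff : FF n F.Tame K) (x : M) : ∃ (m : ℕ) (s₀ : M → ℂ) (s : Fin n → M → ℂ) (z : Fin n → K),
      Co μ m s₀ s ∧ IsZ ff s₀ s z ∧ Et s₀ s x := by
  obtain ⟨e, he, hx, m, hm, s₀, s, h₀, hs, hne, hb⟩ := A.pk3 x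
  have hE : Et s₀ s x := et.of_chart m s₀ s h₀.1 (fun i => (hs i).1) x e he hx hne hb
  choose z hz using fun i => ff.rat m (s i) (tame_of_inH F hm (hs i)) s₀ (tame_of_inH F hm h₀)
    fun h => hne (by rw [h]; rfl)
  exact ⟨m, s₀, s, z, ⟨hm, h₀, hs, x, hE⟩, fun y hy i => hz i y hy, hE⟩

/-- **T3, local part** -/
theorem ch_of {M : Type} [MetricSpace M] [ChartedSpace (Cm 2) M]
    [RiemannianBundle (fun x : M => TangentSpace 𝓘(ℝ, Cm 2) x)] [MeasurableSpace M]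
    {μ : Measure M} (A : All 2 μ) (et : ET 2 M) (geo : GEOY μ) (affx : AFFX 2 μ) (cha : CHA 2 μ)
    {p : M} {F : Fr 2 μ p} (ff : FF 2 F.Tame K) :
    CH ff.O ∧ ∀ x, Res.Geo (ff.O x) ∧ Res.Two (ff.O x) := by
  refine ⟨fun x => ?_, fun x => ?_⟩
  · obtain ⟨m, s₀, s, z, h1, h2, h3⟩ := exists_co A et ff x
    have h4 := geo p F K ff m s₀ s z h1 h2
    obtain ⟨g, P, h5, h6⟩ := h4.sel x h3
    obtain ⟨H, h7, h8⟩ := affx p F K ff m s₀ s z h1 h2 h4 g P h5 x h3 h6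
    exact cha p F K ff m s₀ s z h1 h2 h4 g P h5 x h3 H h6 h7 h8
  · obtain ⟨m, s₀, s, z, h1, h2, h3⟩ := exists_co A et ff x
    exact (geo p F K ff m s₀ s z h1 h2).reg x h3

theorem feq_of (hn : 1 ≤ n) {μ : Measure M} (A : All n μ) (aff : AFF n μ) (algk : ALGK n μ) :
    FEQ n μ := by
  intro p F K _ _ ff p' F' k a ha b hb h0
  obtain ⟨B⟩ := aff p F
  obtain ⟨C, hC⟩ := dim_tame A.ord A.jet F'
  obtain ⟨J, hJ⟩ := VS.count hn (gr_tame A.a F') hC B.m_pos (tame_of_inH F' B.m_pos B.h₀)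
    fun i => tame_of_inH F' B.m_pos (B.hs i)
  obtain ⟨R, h1, -, h2⟩ := hJ k a ha b hb
  exact algk p F B K ff k a b R ha.1 hb.1 h0 h1 h2

theorem img {μ : Measure M} (A : All n μ) (et : ET n M) (bnj : BNJ n μ) (cut : CUT n μ)
    (clop : CLOP n μ) (conn : CONN n) : IMG n μ := by
  rintro p F m s₀ s ⟨hm, h₀, hs, hE⟩ D
  obtain ⟨d, hd, hB⟩ := bnj m s₀ s hm h₀ hs hE
  have gr := gr_tame A.a F
  have t₀ := tame_of_inH F hm h₀
  obtain ⟨N, w, hw, hw'⟩ := hom gr t₀ (fun i => tame_of_inH F hm (hs i)) d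
  obtain ⟨x₀, hx₀⟩ := id hE
  obtain ⟨V, ρ, j, -, -, hρ, -, h4, h5⟩ := et.inv m s₀ s h₀.1 (fun i => (hs i).1) x₀ hx₀
  have hw0 : w ≠ 0 := by
    obtain ⟨z, hz, h7⟩ := exists_ne hd _ hρ
    have h8 := (h5 _ (h4 z hz).1).1.1
    intro h
    have h9 := hw' _ h8
    rw [h, (h4 z hz).2] at h9
    exact mul_ne_zero (pow_ne_zero _ h8) h7 h9.symm
  obtain ⟨Q, hQ⟩ := cut p F m s₀ s hm h₀ hs hE D 1 (fun _ => N * m) (fun _ => s₀ ^ N) (fun _ => w)
    fun _ => ⟨gr.pow t₀ N, hw, hw0⟩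
  obtain ⟨h1, h2⟩ := clop p F m s₀ s h₀.1 (fun i => (hs i).1) D 1 (fun _ => s₀ ^ N) (fun _ => w)
    Q hQ (by
      intro c r C j hr hj hΦ hC ζ hζ
      refine hB c r j hr hj hΦ ζ hζ fun h0 => ?_
      have hcl : ζ ∈ closure (ball c r) := by
        rw [closure_ball c hr.ne']; exact sphere_subset_closedBall hζ
      have h6 : ∀ z ∈ ball c r, 1 ≤ C * ‖MvPolynomial.eval z d‖ := by
        intro z hz
        have h7 := hC 0 z hz
        have h8 := (hΦ z hz).1.1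
        rw [hw' _ h8, (hΦ z hz).2, norm_mul, Pi.pow_apply, mul_left_comm] at h7
        have h9 : 0 < ‖s₀ (j z) ^ N‖ := norm_pos_iff.2 (pow_ne_zero _ h8)
        exact (le_mul_iff_one_le_right h9).1 h7
      have h7 : IsClosed {z : Cm n | 1 ≤ C * ‖MvPolynomial.eval z d‖} :=
        isClosed_le continuous_const
          (continuous_const.mul (MvPolynomial.continuous_eval d).norm)
      have h8 := h7.closure_subset_iff.2 h6 hcl
      simp only [mem_ofPred_eq, h0, norm_zero, mul_zero] at h8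
      linarith)
  refine ⟨Q, hQ.ne, hQ.sep, hQ.nev, conn D.P Q D.monic D.irr hQ.sep _ ?_ ?_ h1 h2⟩
  · rintro q ⟨h4, x, h5, h6, h7⟩
    refine ⟨h4, ?_⟩
    rw [← h6, ← h7]
    exact D.root x h5.1 (hQ.nev x h5.1 (h6 ▸ h4))
  · obtain ⟨z, hz, h7⟩ := exists_ne hQ.ne _ hρ
    exact ⟨(z, D.u (j z) / D.v (j z)), h7, j z, (h5 _ (h4 z hz).1).1, (h4 z hz).2, rfl⟩

/-! ### values of polynomials -/

section Val

omit [RiemannianBundle (fun x : M => TangentSpace 𝓘(ℝ, Cm n) x)] [MeasurableSpace M]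

variable {T : ℕ → Submodule ℂ (M → ℂ)} (ff : FF n T K)

/-- the value at a point as a homomorphism -/
def valHom (x : M) : ff.O x →ₐ[ℂ] ℂ where
  toFun f := ff.val f x
  map_one' := by simpa using ff.val_const x 1
  map_mul' f g := ff.val_mul x _ f.2 _ g.2
  map_zero' := by simpa using ff.val_const x 0
  map_add' f g := ff.val_add x _ f.2 _ g.2
  commutes' c := ff.val_const x c

theorem val_aeval {x : M} {z : Fin n → K} (hz : ∀ i, z i ∈ ff.O x) (d : Pz n) :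
    MvPolynomial.aeval z d ∈ ff.O x ∧ ff.val (MvPolynomial.aeval z d) x =
      MvPolynomial.eval (fun i => ff.val (z i) x) d := by
  induction d using MvPolynomial.induction_on with
  | C c => simpa using ff.val_const x c
  | add p q hp hq =>
    rw [map_add, map_add, ff.val_add x _ hp.1 _ hq.1, hp.2, hq.2]
    exact ⟨add_mem hp.1 hq.1, rfl⟩
  | mul_X p i hp =>
    rw [map_mul, map_mul, MvPolynomial.aeval_X, MvPolynomial.eval_X, ff.val_mul x _ hp.1 _ (hz i),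
      hp.2]
    exact ⟨mul_mem hp.1 (hz i), rfl⟩

theorem val_pow {x : M} {g : K} (hg : g ∈ ff.O x) (k : ℕ) :
    ff.val (g ^ k) x = ff.val g x ^ k := by
  simpa [valHom] using map_pow (valHom ff x) ⟨g, hg⟩ k

theorem val_evK {x : M} {z : Fin n → K} {g : K} (hz : ∀ i, z i ∈ ff.O x) (hg : g ∈ ff.O x)
    (H : Polynomial (Pz n)) : evK H z g ∈ ff.O x ∧
      ff.val (evK H z g) x = ev H (fun i => ff.val (z i) x) (ff.val g x) := by
  induction H using Polynomial.induction_on' with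
  | add p q hp hq =>
    have e1 : evK (p + q) z g = evK p z g + evK q z g := Polynomial.eval₂_add _ _
    rw [e1, ff.val_add x _ hp.1 _ hq.1, hp.2, hq.2]
    exact ⟨add_mem hp.1 hq.1, by simp [ev]⟩
  | monomial k d =>
    have e1 : evK (Polynomial.monomial k d) z g = MvPolynomial.aeval z d * g ^ k :=
      Polynomial.eval₂_monomial _ _
    obtain ⟨h1, h2⟩ := val_aeval ff hz d
    rw [e1, ff.val_mul x _ h1 _ (pow_mem hg k), h2, val_pow ff hg]
    exact ⟨mul_mem h1 (pow_mem hg k), by simp [ev]⟩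

end Val

end Vale.Agent.P253Y.T3
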