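import Vale.Agent.P253Y.T3.Sk
import Vale.Agent.P253Z.T2.Clop
import Vale.Agent.P253Z.T2.Root

/-!
# P253Y, T3: the points of the variety near a given point are points of `M`
-/

open scoped Manifold ContDiff Bundle ENNReal Topology
open Bundle IsManifold MeasureTheory Set Metric Filter Vale.Agent.P253.Mfd
open Vale.Agent.P272.K (Cm Chart)
open Vale.Agent.P253Z Vale.Agent.P253Z.T2
open Vale.Agent.P253Z.VS (ev)

noncomputable section

namespace Vale.Agent.P253Y.T3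

namespace Affx

variable {n : ℕ}

/-- the sheet through a simple root -/
theorem sheet {P : Polynomial (Pz n)} {ζ : Cm n} {t : ℂ} (h : ev P ζ t = 0)
    (h' : ev P.derivative ζ t ≠ 0) {W : Cm n × ℂ → Prop} (hW : ∀ᶠ q in 𝓝 (ζ, t), W q) :
    ∃ (τ : Cm n → ℂ) (ρ : ℝ), 0 < ρ ∧ τ ζ = t ∧ ∀ z ∈ ball ζ ρ, ContinuousAt τ z ∧ W (z, τ z) ∧
      ∀ᶠ q in 𝓝 (z, τ z), ev P q.1 q.2 = 0 ↔ τ q.1 = q.2 := by
  have h1 : ContDiffAt ℂ ω (fun q : Cm n × ℂ => ev P q.1 q.2) (ζ, t) :=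
    (Root.ev_an P _).contDiffAt
  have h2 : (fderiv ℂ (fun q : Cm n × ℂ => ev P q.1 q.2) (ζ, t) ∘L
      .inr ℂ (Cm n) ℂ).IsInvertible :=
    ⟨.unitsEquivAut ℂ (.mk0 _ h'), (Root.ev_deriv P ζ t).hasFDerivAt.unique
      ((Root.ev_an P _).differentiableAt.hasFDerivAt.comp t (hasFDerivAt_prodMk_right ζ t))⟩
  have h3 := (h1.contDiffAt_implicitFunction (by simp) h2).analyticAt
  have h4 := h1.implicitFunction_apply_self (by simp) h2
  have h5 := h1.eventually_apply_eq_iff_implicitFunction (by simp) h2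
  generalize h1.implicitFunction (by simp) h2 = τ at h3 h4 h5
  simp only [h] at h3 h4 h5
  have h6 : Tendsto (fun z => (z, τ z)) (𝓝 ζ) (𝓝 (ζ, t)) :=
    tendsto_id.prodMk_nhds (h4 ▸ h3.continuousAt)
  obtain ⟨ρ, hρ, k⟩ := Metric.eventually_nhds_iff_ball.1 (h3.eventually_analyticAt.and
    (h6.eventually (hW.and h5.eventually_nhds)))
  exact ⟨τ, ρ, hρ, h4, fun z hz => ⟨(k z hz).1.continuousAt, (k z hz).2⟩⟩

variable {M : Type} [MetricSpace M] [ChartedSpace (Cm n) M] {K : Type} [Field K] [Algebra ℂ K]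

theorem val_cont (a : B1a n M) {T : ℕ → Submodule ℂ (M → ℂ)} (ff : FF n T K) {x : M} {f : K}
    (hf : f ∈ ff.O x) : ContinuousAt (ff.val f) x := by
  have hx := mem_chart_source (Cm n) x
  refine ((ff.hol x f hf _ (a.chart x) hx).continuousAt.comp
    ((chartAt (Cm n) x).continuousAt hx)).congr ?_
  filter_upwards [(chartAt (Cm n) x).open_source.mem_nhds hx] with y hy
  simp only [Function.comp, (chartAt (Cm n) x).left_inv hy]

end Affx

open Affx

variable {n : ℕ} {M : Type} [MetricSpace M] [ChartedSpace (Cm n) M]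
  [RiemannianBundle (fun x : M => TangentSpace 𝓘(ℝ, Cm n) x)] [MeasurableSpace M] {μ : Measure M}

theorem affx (a : B1a n M) (et : ET n M) (bnr : BNR n μ) (feq : FEQ n μ) (primg : PRIMG n μ)
    (img : IMG n μ) : AFFX n μ := by
  intro p F K _ _ ff m s₀ s z co hz geo g P gen x hx hx'
  have h₀ := co.h₀.1
  have hs := fun i => (co.hs i).1
  obtain ⟨uq, D, rfl, hD⟩ := primg p F K ff m s₀ s z co hz geo g P gen
  obtain ⟨Q, hQ, -, nev, him⟩ := img p F m s₀ s co D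
  obtain ⟨F', r, k, u, v, huv, -, hB⟩ := bnr p m s₀ s co.pos co.h₀ co.hs x hx
  have v0 : ∀ i, v i ≠ 0 := fun i h => (huv i).2.2 (by rw [h]; rfl)
  choose f hf using fun i => feq p F K ff p F' (k i) (u i) (huv i).1 (v i) (huv i).2.1 (v0 i)
  choose α hα β hβ hb hfb using fun i => geo.loc x hx (f i) (hf i x (huv i).2.2).1
  choose A hA using fun i => gen.cond _ (hα i)
  choose B hB' using fun i => gen.cond _ (hβ i)
  have hO : ∀ y, s₀ y ≠ 0 → g ∈ ff.O y := fun y hy => geo.le y hy gen.mem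
  have hv : ∀ y, s₀ y ≠ 0 → ∀ R, evK R z g ∈ ff.O y ∧
      ff.val (evK R z g) y = ev R (Phi s₀ s y) (ff.val g y) := fun y hy R => by
    have h := val_evK ff (fun i => (hz y hy i).1) (hO y hy) R
    rwa [show (fun i => ff.val (z i) y) = Phi s₀ s y from funext fun i => (hz y hy i).2] at h
  have hΦ : ∀ y, s₀ y ≠ 0 → ContinuousAt (Phi s₀ s) y := fun y hy =>
    continuousAt_pi.2 fun i => (et.cont _ (s i) s₀ (hs i) h₀ y hy).1
  have hg : ∀ y, s₀ y ≠ 0 → ContinuousAt (ff.val g) y := fun y hy => val_cont a ff (hO y hy)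
  have hr : ∀ y, s₀ y ≠ 0 → ev D.P (Phi s₀ s y) (ff.val g y) = 0 := fun y hy => by
    rw [← (hv y hy _).2, gen.root]
    simpa using ff.val_const y 0
  have bd : ∀ i y (C : ℝ), s₀ y ≠ 0 → ev (B i) (Phi s₀ s y) (ff.val g y) ≠ 0 →
      ‖ev (A i) (Phi s₀ s y) (ff.val g y) / ev (B i) (Phi s₀ s y) (ff.val g y)‖ < C →
      ‖u i y‖ ≤ C * ‖v i y‖ := by
    intro i y C hy h1 h2
    have c : ∀ R, ContinuousAt (fun w => ev R (Phi s₀ s w) (ff.val g w)) y := fun R =>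
      ContinuousAt.comp (f := fun w => (Phi s₀ s w, ff.val g w)) (Root.ev_an R _).continuousAt
        ((hΦ y hy).prodMk (hg y hy))
    refine et.le _ _ _ (huv i).1.1 (huv i).2.1.1 y C (((not_eventually.1 fun e =>
      v0 i (a.ident _ _ (huv i).2.1.1 y e)).and_eventually
      (((et.cont _ s₀ s₀ h₀ h₀ y hy).2.and ((c _).eventually_ne h1)).and
        (((c _).div (c _) h1).norm.eventually_lt continuousAt_const h2))).mono ?_)
    rintro w ⟨k1, ⟨k2, k3⟩, k4⟩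
    have k5 : ev (A i) (Phi s₀ s w) (ff.val g w) =
        u i w / v i w * ev (B i) (Phi s₀ s w) (ff.val g w) := by
      rw [← (hv w k2 _).2, ← (hv w k2 _).2, ← (hf i w k1).2,
        ← ff.val_mul w _ (hf i w k1).1 _ (hv w k2 _).1, ← hA, ← hB', ← hfb, mul_left_comm]
    simp only [Pi.div_apply, k5, mul_div_cancel_right₀ _ k3, norm_div] at k4
    exact ((div_lt_iff₀ (norm_pos_iff.2 k1)).1 k4).le
  have hH : ∀ ζ t, ev (∏ i, B i) ζ t ≠ 0 ↔ ∀ i, ev (B i) ζ t ≠ 0 := fun ζ t => by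
    simp [ev, Polynomial.map_prod, Polynomial.eval_prod, Finset.prod_eq_zero_iff]
  refine ⟨∏ i, B i, (hH _ _).2 fun i => ?_, fun ζ t h1 h2 h3 => ?_⟩
  · rw [← (hv x hx.1 _).2, ← hB', ff.val_mul x _ (hv x hx.1 _).1 _ (geo.le x hx.1 (hβ i)),
      (hv x hx.1 _).2]
    exact mul_ne_zero hx' (hb i)
  obtain ⟨τ, ρ, hρ, rfl, ht⟩ := sheet h1 h2
    (((Root.ev_an D.P.derivative (ζ, t)).continuousAt.eventually_ne h2).and
      ((Root.ev_an (∏ i, B i) (ζ, t)).continuousAt.eventually_ne h3))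
  have h4 : ∀ y, Et s₀ s y → Phi s₀ s y ∈ ball ζ ρ → ff.val g y = τ (Phi s₀ s y) →
      ∃ j : Cm n → M, ContinuousAt j (Phi s₀ s y) ∧ ∀ᶠ w in 𝓝 (Phi s₀ s y),
        Et s₀ s (j w) ∧ Phi s₀ s (j w) = w ∧ ff.val g (j w) = τ w := by
    intro y hy k0 e
    obtain ⟨V, δ, j, -, k1, k2, k3, k4, k5⟩ := et.inv m s₀ s h₀ hs y hy
    have k6 := k3.continuousAt (ball_mem_nhds _ k2)
    have k7 := (k5 y k1).2.2
    have k8 : ContinuousAt (fun w => (w, ff.val g (j w))) (Phi s₀ s y) :=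
      continuousAt_id.prodMk (ContinuousAt.comp (g := ff.val g) (k7.symm ▸ hg y hy.1) k6)
    have k9 := (ht _ k0).2.2
    rw [← e] at k9
    have k10 : Tendsto (fun w => (w, ff.val g (j w))) (𝓝 (Phi s₀ s y))
        (𝓝 (Phi s₀ s y, ff.val g y)) := by simpa only [k7] using k8.tendsto
    refine ⟨j, k6, ?_⟩
    filter_upwards [k10.eventually k9, ball_mem_nhds _ k2] with w l1 l2
    obtain ⟨l3, l4⟩ := k4 w l2
    have l5 := (k5 _ l3).1
    refine ⟨l5, l4, (l1.1 ?_).symm⟩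
    have l6 := hr _ l5.1
    rwa [l4] at l6
  have : Nonempty M := ⟨p⟩
  set G : Set (Cm n) := {w ∈ ball ζ ρ | ∃ y, Et s₀ s y ∧ Phi s₀ s y = w ∧ ff.val g y = τ w}
  have hG : IsOpen G := isOpen_iff_mem_nhds.2 fun w ⟨hw, y, k1, k2, k3⟩ => by
    subst k2
    obtain ⟨j, -, k4⟩ := h4 y k1 hw k3
    filter_upwards [k4, isOpen_ball.mem_nhds hw] with w' l1 l2 using ⟨l2, _, l1⟩
  choose! j hj using fun w (hw : w ∈ G) => hw.2
  have jc : ∀ w ∈ G, ContinuousAt j w := fun w hw => by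
    obtain ⟨k1, k2, k3⟩ := hj w hw
    obtain ⟨j', k4, k5⟩ := h4 (j w) k1 (k2.symm ▸ hw.1) (by rw [k2, k3])
    rw [k2] at k4 k5
    refine k4.congr ?_
    filter_upwards [k5, hG.mem_nhds hw] with w' l1 l2
    obtain ⟨l3, l4, l5⟩ := hj w' l2
    exact uq _ _ l1.1 l3 (l1.2.1.trans l4.symm) (l1.2.2.trans l5.symm)
      (by rw [l1.2.1, l1.2.2]; exact (ht w' l2.1).2.1.1)
  by_contra hn
  have hζ : ζ ∈ Gᶜ := fun h => hn h.2
  obtain ⟨c, k3, k1⟩ := exists_ne hQ ζ (half_pos hρ)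
  have k2 := ball_subset_ball (half_le_self hρ.le) k3
  have hc : c ∈ G := by
    obtain ⟨-, y, l1, l2, l3⟩ : (c, τ c) ∈ Img s₀ s D.u D.v Q :=
      him ▸ ⟨k1, (ht c k2).2.2.self_of_nhds.2 rfl⟩
    exact ⟨k2, y, l1, l2, (hD y l1.1 (nev y l1.1 (l2 ▸ k1))).symm.trans l3⟩
  obtain ⟨ξ, k4, k5⟩ := hG.isClosed_compl.exists_infDist_eq_dist ⟨_, hζ⟩ c
  have k6 : ball c (dist c ξ) ⊆ G := by
    rw [← k5]
    exact ball_infDist_compl_subset
  have k7 : closedBall c (dist c ξ) ⊆ ball ζ ρ := closedBall_subset_ball' (by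
    have := infDist_le_dist_of_mem (x := c) hζ
    have := mem_ball.1 k3
    linarith)
  have k8 : ξ ∈ sphere c (dist c ξ) := mem_sphere'.2 rfl
  have k9 := k7 (sphere_subset_closedBall k8)
  obtain ⟨C, hC⟩ := (isCompact_closedBall c (dist c ξ)).exists_bound_of_continuousOn
    (f := fun w i => ev (A i) w (τ w) / ev (B i) w (τ w)) fun w hw => by
      have c : ∀ R, ContinuousAt (fun w => ev R w (τ w)) w := fun R =>
        ContinuousAt.comp (f := fun w => (w, τ w)) (Root.ev_an R _).continuousAt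
          (continuousAt_id.prodMk (ht w (k7 hw)).1)
      exact (continuousAt_pi.2 fun i => (c _).div (c _)
        ((hH _ _).1 (ht w (k7 hw)).2.1.2 i)).continuousWithinAt
  obtain ⟨y, l1, l2⟩ := hB c _ (C + 1) j (dist_pos.2 fun e : c = ξ => k4 (e ▸ hc))
    (fun w hw => (jc w (k6 hw)).continuousWithinAt)
    (fun w hw => ⟨(hj w (k6 hw)).1, (hj w (k6 hw)).2.1⟩) (fun i w hw => by
      obtain ⟨l3, l4, l5⟩ := hj w (k6 hw)
      refine bd i _ _ l3.1 ?_ ?_ <;> rw [l4, l5]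
      exacts [(hH _ _).1 (ht w (k6 hw).1).2.1.2 i, ((norm_le_pi_norm _ i).trans
        (hC w (ball_subset_closedBall hw))).trans_lt (lt_add_one C)]) ξ k8
  exact k4 ⟨k9, y, l1, Clop.cl_eq l2 (hΦ y l1.1)
    ((tendsto_id.mono_left nhdsWithin_le_nhds).congr'
      (eventually_mem_nhdsWithin.mono fun w hw => (hj w (k6 hw)).2.1.symm)),
    Clop.cl_eq l2 (hg y l1.1) (((ht ξ k9).1.tendsto.mono_left nhdsWithin_le_nhds).congr'
      (eventually_mem_nhdsWithin.mono fun w hw => (hj w (k6 hw)).2.2.symm))⟩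

end Vale.Agent.P253Y.T3
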