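import Vale.Agent.P253Y.T3.Sk
import Vale.Agent.P253Y.Big.Bk

/-!
# P253Y, T3: algebraic meromorphic functions are in the field
-/

open scoped Manifold ContDiff Bundle ENNReal Topology
open Bundle IsManifold MeasureTheory Set Metric Filter Vale.Agent.P253.Mfd
open Vale.Agent.P272.K (Cm Chart)
open Vale.Agent.P253Z Vale.Agent.P253Z.T2
open Vale.Agent.P253Z.VS (ev)

noncomputable section

namespace Vale.Agent.P253Y.T3

variable {n : ℕ} {M : Type} [MetricSpace M] [ChartedSpace (Cm n) M]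

namespace Algk

variable {T : ℕ → Submodule ℂ (M → ℂ)} {K : Type} [Field K] [Algebra ℂ K]

theorem val_div (ff : FF n T K) {x : M} {f g : K} (hf : f ∈ ff.O x) (hg : g ∈ ff.O x)
    (h : ff.val g x ≠ 0) : f / g ∈ ff.O x ∧ ff.val (f / g) x = ff.val f x / ff.val g x := by
  have h1 : f / g ∈ ff.O x := by
    rw [div_eq_mul_inv]
    exact mul_mem hf (ff.inv x g hg h)
  have h2 : g ≠ 0 := fun e => h (by rw [e, Big.Bk.val_zero])
  refine ⟨h1, eq_div_of_mul_eq h ?_⟩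
  rw [← ff.val_mul x _ h1 _ hg, div_mul_cancel₀ _ h2]

/-- an element with the right values off the zeros of a section -/
theorem spread (a₁ : B1a n M) (et : ET n M) (ff : FF n T K) {k l : ℤ} {s a b : M → ℂ}
    (hs : IsSec n l s) (h0 : s ≠ 0) (ha : IsSec n k a) (hb : IsSec n k b) {f : K}
    (h : ∀ y, s y ≠ 0 → b y ≠ 0 → ff.val f y = a y / b y) (x : M) (hx : b x ≠ 0) :
    f ∈ ff.O x ∧ ff.val f x = a x / b x := by
  have key : ∀ y, b y ≠ 0 → f ∈ ff.O y → ff.val f y = a y / b y := fun y hy hf => by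
    obtain ⟨h1, h2⟩ := et.cont k a b ha hb y hy
    have h3 : ¬ ∀ᶠ w in 𝓝 y, s w = 0 := fun e => h0 (a₁.ident l s hs y e)
    exact tendsto_nhds_unique_of_frequently_eq (Big.Bk.val_cont a₁ ff hf) h1
      (((not_eventually.1 h3).and_eventually h2).mono fun w hw => h w hw.1 hw.2)
  obtain ⟨h1, h2⟩ := et.cont k a b ha hb x hx
  have h3 : f ∈ ff.O x := by
    refine ff.bdd x f (‖a x / b x‖ + 1) ?_
    filter_upwards [h1.norm.eventually_lt continuousAt_const (lt_add_one ‖a x / b x‖), h2]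
      with y hy hy' hf
    rw [key y hy' hf]
    exact hy.le
  exact ⟨h3, key x hx h3⟩

end Algk

variable [RiemannianBundle (fun x : M => TangentSpace 𝓘(ℝ, Cm n) x)] [MeasurableSpace M]
  {μ : Measure M}

open Algk in
theorem algk (a₁ : B1a n M) (et : ET n M) (ext : EXT n μ) (lag : LAG n μ) : ALGK n μ := by
  intro p F A K _ _ ff k a b R ha hb b0 R0 hR
  obtain ⟨c, h, C, N, c0, hh⟩ := ext p F A k a b R ha hb b0 R0 hR
  obtain ⟨R', hR'⟩ := lag p F A h C N fun x hx => ⟨(hh x hx).1, (hh x hx).2.1⟩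
  obtain ⟨x₀, hx₀⟩ := Function.ne_iff.1 A.σ_ne
  have t₀ := tame_of_inH F A.m_pos A.h₀
  have ts := fun i => tame_of_inH F A.m_pos (A.hs i)
  choose z hz using fun i => ff.rat A.m (A.s i) (ts i) A.s₀ t₀
    (Function.ne_iff.2 ⟨x₀, A.ne₀ x₀ hx₀⟩)
  obtain ⟨g, hg⟩ := ff.rat A.l A.u A.hu A.v A.hv (Function.ne_iff.2 ⟨x₀, A.nev x₀ hx₀⟩)
  obtain ⟨D, w, hw, hw'⟩ := hom (gr_tame a₁ F) t₀ ts c
  have hQ : A.Q ≠ 0 := fun e => A.neQ x₀ hx₀ (by rw [e, map_zero])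
  have h0 : A.σ * w ≠ 0 := by
    obtain ⟨ζ, -, hζ⟩ := exists_ne (mul_ne_zero c0 hQ) 0 one_pos
    rw [map_mul] at hζ
    obtain ⟨t, ht⟩ := Big.Bk.exists_root A.monic (A.root x₀ hx₀) ζ
    obtain ⟨x, hx, rfl, -⟩ := A.onto ζ t (right_ne_zero_of_mul hζ) ht
    refine Function.ne_iff.2 ⟨x, mul_ne_zero hx ?_⟩
    rw [hw' x (A.ne₀ x hx)]
    exact mul_ne_zero (pow_ne_zero _ (A.ne₀ x hx)) (left_ne_zero_of_mul hζ)
  refine ⟨evK R' z g / (MvPolynomial.aeval z (A.Q ^ 2 * c) * evK A.P.derivative z g),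
    spread a₁ et ff (a₁.sec_mul _ _ _ _ A.hσ.1 hw.1) h0 ha hb fun y hy hb' => ?_⟩
  have h1 : A.σ y ≠ 0 := left_ne_zero_of_mul hy
  have h2 : MvPolynomial.eval (Phi A.s₀ A.s y) c ≠ 0 := by
    have h3 : w y ≠ 0 := right_ne_zero_of_mul hy
    rw [hw' y (A.ne₀ y h1)] at h3
    exact right_ne_zero_of_mul h3
  have z1 : ∀ i, z i ∈ ff.O y := fun i => (hz i y (A.ne₀ y h1)).1
  have z2 : (fun i => ff.val (z i) y) = Phi A.s₀ A.s y := funext fun i => (hz i y (A.ne₀ y h1)).2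
  obtain ⟨g1, g2⟩ := hg y (A.nev y h1)
  obtain ⟨e1, e2⟩ := val_evK ff z1 g1 R'
  obtain ⟨e3, e4⟩ := val_evK ff z1 g1 A.P.derivative
  obtain ⟨e5, e6⟩ := val_aeval ff z1 (A.Q ^ 2 * c)
  rw [z2, g2] at e2 e4
  rw [z2, map_mul (MvPolynomial.eval _), map_pow] at e6
  have e7 := ff.val_mul y _ e5 _ e3
  rw [e6, e4] at e7
  have h4 := mul_ne_zero (mul_ne_zero (pow_ne_zero 2 (A.neQ y h1)) h2) (A.simple y h1)
  rw [(val_div ff e1 (mul_mem e5 e3) (by rwa [e7])).2, e7, e2, ← hR' y h1, (hh y h1).2.2 hb',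
    div_eq_iff h4]
  ring

theorem rat (_a : B1a n M) (algk : ALGK n μ) : Big.RAT n μ := by
  intro p F A K _ _ ff f R hf R0 hR
  obtain ⟨φ, hφ⟩ := algk p F A K ff 0 f 1 R (by simpa using hf) (one_tame F).1
    (Function.ne_iff.2 ⟨p, one_ne_zero⟩) R0 fun x hx _ => by simpa using hR x hx
  exact ⟨φ, fun x => by simpa using hφ x one_ne_zero⟩

end Vale.Agent.P253Y.T3
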