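import Vale.Agent.P253Y.T3.Sk

/-!
# P253Y, T3: the affine neighbourhood (CHA)

See notes/P253_T3.md.
-/

open scoped Manifold ContDiff Bundle ENNReal Topology
open Bundle IsManifold MeasureTheory Set Metric Filter Vale.Agent.P253.Mfd
open Vale.Agent.P272.K (Cm Chart)
open Vale.Agent.P253Z Vale.Agent.P253Z.T2
open Vale.Agent.P253Z.VS (ev)
open Vale.Agent.P297Z.Sf (loc)

noncomputable section

namespace Vale.Agent.P253Y.T3

variable {n : ℕ} {M : Type} [MetricSpace M] [ChartedSpace (Cm n) M]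
  {K : Type} [Field K] [Algebra ℂ K]

namespace Cha

/-- the Nullstellensatz -/
theorem exists_hom {A : Type} [CommRing A] [Algebra ℂ A] [Algebra.FiniteType ℂ A] (I : Ideal A)
    (hI : I.IsMaximal) : ∃ φ : A →ₐ[ℂ] ℂ, ∀ a, a ∈ I ↔ φ a = 0 := by
  let := Ideal.Quotient.field I
  have := finite_of_finite_type_of_isJacobsonRing ℂ (A ⧸ I)
  let e : ℂ ≃ₐ[ℂ] (A ⧸ I) := AlgEquiv.ofBijective (Algebra.ofId ℂ (A ⧸ I))
    (IsAlgClosed.algebraMap_bijective_of_isIntegral (k := ℂ) (K := A ⧸ I))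
  refine ⟨(e.symm : (A ⧸ I) →ₐ[ℂ] ℂ).comp (Ideal.Quotient.mkₐ ℂ I), fun a => ?_⟩
  simp [Ideal.Quotient.eq_zero_iff_mem]

theorem evK_mul (P Q : Polynomial (Pz n)) (z : Fin n → K) (g : K) :
    evK (P * Q) z g = evK P z g * evK Q z g := Polynomial.eval₂_mul _ _

theorem ev_mul (P Q : Polynomial (Pz n)) (ζ : Fin n → ℂ) (t : ℂ) :
    ev (P * Q) ζ t = ev P ζ t * ev Q ζ t := by simp [ev]

theorem aeval_mem {A : Subalgebra ℂ K} {z : Fin n → K} (hz : ∀ i, z i ∈ A) (d : Pz n) :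
    ∃ h : MvPolynomial.aeval z d ∈ A, ∀ φ : A →ₐ[ℂ] ℂ,
      φ ⟨_, h⟩ = MvPolynomial.eval (fun i => φ ⟨z i, hz i⟩) d := by
  induction d using MvPolynomial.induction_on with
  | C c =>
    refine ⟨by simp, fun φ => ?_⟩
    rw [MvPolynomial.eval_C]
    refine Eq.trans (congrArg φ (Subtype.ext ?_)) (φ.commutes c)
    simp
  | add p q hp hq =>
    obtain ⟨h1, h2⟩ := hp
    obtain ⟨h3, h4⟩ := hq
    refine ⟨by rw [map_add]; exact add_mem h1 h3, fun φ => ?_⟩
    rw [map_add (MvPolynomial.eval _), ← h2, ← h4, ← map_add φ]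
    exact congrArg φ (Subtype.ext (map_add _ _ _))
  | mul_X p i hp =>
    obtain ⟨h1, h2⟩ := hp
    refine ⟨by rw [map_mul, MvPolynomial.aeval_X]; exact mul_mem h1 (hz i), fun φ => ?_⟩
    rw [map_mul (MvPolynomial.eval _), MvPolynomial.eval_X, ← h2, ← map_mul φ]
    exact congrArg φ (Subtype.ext (by simp))

theorem evK_mem {A : Subalgebra ℂ K} {z : Fin n → K} {g : K} (hz : ∀ i, z i ∈ A) (hg : g ∈ A)
    (H : Polynomial (Pz n)) : ∃ h : evK H z g ∈ A, ∀ φ : A →ₐ[ℂ] ℂ,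
      φ ⟨_, h⟩ = ev H (fun i => φ ⟨z i, hz i⟩) (φ ⟨g, hg⟩) := by
  induction H using Polynomial.induction_on' with
  | add p q hp hq =>
    obtain ⟨h1, h2⟩ := hp
    obtain ⟨h3, h4⟩ := hq
    have e1 : evK (p + q) z g = evK p z g + evK q z g := Polynomial.eval₂_add _ _
    refine ⟨e1 ▸ add_mem h1 h3, fun φ => ?_⟩
    have e2 : ∀ ζ t, ev (p + q) ζ t = ev p ζ t + ev q ζ t := fun ζ t => by simp [ev]
    rw [e2, ← h2, ← h4, ← map_add φ]
    exact congrArg φ (Subtype.ext e1)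
  | monomial k d =>
    have e1 : evK (Polynomial.monomial k d) z g = MvPolynomial.aeval z d * g ^ k :=
      Polynomial.eval₂_monomial _ _
    obtain ⟨h1, h2⟩ := aeval_mem hz d
    refine ⟨e1 ▸ mul_mem h1 (pow_mem hg k), fun φ => ?_⟩
    have e2 : ∀ ζ t, ev (Polynomial.monomial k d) ζ t = MvPolynomial.eval ζ d * t ^ k :=
      fun ζ t => by simp [ev]
    rw [e2, ← h2, ← map_pow φ, ← map_mul φ]
    exact congrArg φ (Subtype.ext e1)

variable {T : ℕ → Submodule ℂ (M → ℂ)} (ff : FF n T K)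

theorem ne_of_val {y : M} {f : K} (h : ff.val f y ≠ 0) : f ≠ 0 := by
  rintro rfl
  exact h (by simpa using ff.val_const y 0)

theorem val_inv {y : M} {f : K} (hf : f ∈ ff.O y) (h : ff.val f y ≠ 0) :
    ff.val f⁻¹ y * ff.val f y = 1 := by
  rw [← ff.val_mul y _ (ff.inv y f hf h) _ hf, inv_mul_cancel₀ (ne_of_val ff h)]
  simpa using ff.val_const y 1

/-- the local ring is a localisation -/
theorem loc_eq {A B : Subalgebra ℂ K} {y : M} (hA : A ≤ ff.O y) (hB : B ≤ A) {I : Ideal A}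
    (hI : I.IsPrime) (h : ∀ a : A, a ∈ I ↔ ff.val a y = 0)
    (hl : ∀ f ∈ ff.O y, ∃ a ∈ B, ∃ b ∈ B, ff.val b y ≠ 0 ∧ f * b = a) :
    ff.O y = loc A I hI := by
  ext f
  constructor
  · intro hf
    obtain ⟨a, ha, b, hb, h1, h2⟩ := hl f hf
    exact ⟨⟨a, hB ha⟩, ⟨b, hB hb⟩, fun h3 => h1 ((h _).1 h3), h2⟩
  · rintro ⟨a, b, h1, h2⟩
    have h3 : ff.val b y ≠ 0 := fun h4 => h1 ((h b).2 h4)
    have h5 : f = a * (b : K)⁻¹ := by
      rw [← h2, mul_assoc, mul_inv_cancel₀ (ne_of_val ff h3), mul_one]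
    rw [h5]
    exact mul_mem (hA a.2) (ff.inv y _ (hA b.2) h3)

theorem z_mem (z : Fin n → K) (i : Fin n) : z i ∈ icB z := by
  have h : z i ∈ Algebra.adjoin ℂ (range z) := Algebra.subset_adjoin ⟨i, rfl⟩
  exact algebraMap_mem (integralClosure (Algebra.adjoin ℂ (range z)) K) ⟨z i, h⟩

end Cha

open Cha

variable [RiemannianBundle (fun x : M => TangentSpace 𝓘(ℝ, Cm n) x)] [MeasurableSpace M]

/-- **CHA** -/
theorem cha {μ : Measure M} (et : ET n M) : CHA n μ := by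
  intro p F K _ _ ff m s₀ s z hco hZ geo g P gen x hx H h1 h2 hsurj
  set w : K := evK (P.derivative * H) z g with hw
  set S : Set K := insert w⁻¹ (insert g (range z)) with hS
  set A : Subalgebra ℂ K := Algebra.adjoin ℂ S with hA
  have hz : ∀ i, z i ∈ A := fun i => Algebra.subset_adjoin (Or.inr (Or.inr ⟨i, rfl⟩))
  have hg : g ∈ A := Algebra.subset_adjoin (Or.inr (Or.inl rfl))
  have hw' : w⁻¹ ∈ A := Algebra.subset_adjoin (Or.inl rfl)
  have hval : ∀ y, s₀ y ≠ 0 → w ∈ ff.O y ∧ ff.val w y =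
      ev (P.derivative * H) (Phi s₀ s y) (ff.val g y) := by
    intro y hy
    obtain ⟨h3, h4⟩ := val_evK ff (fun i => (hZ y hy i).1) (geo.le y hy gen.mem)
      (P.derivative * H)
    refine ⟨h3, ?_⟩
    rw [h4, show (fun i => ff.val (z i) y) = Phi s₀ s y from funext fun i => (hZ y hy i).2]
  have hle : ∀ y, s₀ y ≠ 0 → ff.val w y ≠ 0 → A ≤ ff.O y := by
    intro y hy h3
    refine Algebra.adjoin_le ?_
    rintro f (rfl | rfl | ⟨i, rfl⟩)
    · exact ff.inv y w (hval y hy).1 h3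
    · exact geo.le y hy gen.mem
    · exact (hZ y hy i).1
  have hx' : ff.val w x ≠ 0 := by
    rw [(hval x hx.1).2, ev_mul]
    exact mul_ne_zero h1 h2
  have hw0 : w ≠ 0 := ne_of_val ff hx'
  have hB : icB z ≤ A := by
    intro b hb
    obtain ⟨R, hR⟩ := gen.cond b hb
    have h3 : b = evK R z g * evK H z g * w⁻¹ := by
      rw [← hR, mul_right_comm _ b, ← evK_mul, ← hw, mul_right_comm, mul_inv_cancel₀ hw0, one_mul]
    rw [h3]
    exact mul_mem (mul_mem (evK_mem hz hg R).1 (evK_mem hz hg H).1) hw'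
  have hft : Algebra.FiniteType ℂ A := by
    rw [← Subalgebra.fg_iff_finiteType]
    exact Subalgebra.fg_def.2 ⟨S, ((finite_range z).insert g).insert _, rfl⟩
  refine ⟨A, hft, ?_, fun I hI => ?_, ?_⟩
  · refine IsFractionRing.of_field _ _ fun f => ?_
    obtain ⟨d, hd, R, hR⟩ := gen.gen f
    obtain ⟨V, ρ, j, -, -, hρ, -, h4, h5⟩ :=
      et.inv m s₀ s hco.h₀.1 (fun i => (hco.hs i).1) x hx
    obtain ⟨ζ, hζ, h7⟩ := exists_ne hd _ hρ
    have h8 := (h5 _ (h4 ζ hζ).1).1.1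
    have h9 : MvPolynomial.aeval z d ≠ 0 := by
      refine ne_of_val ff (y := j ζ) ?_
      rw [(val_aeval ff (fun i => (hZ _ h8 i).1) d).2,
        show (fun i => ff.val (z i) (j ζ)) = Phi s₀ s (j ζ) from funext fun i => (hZ _ h8 i).2,
        (h4 ζ hζ).2]
      exact h7
    refine ⟨⟨_, (evK_mem hz hg R).1⟩, ⟨_, (aeval_mem hz d).1⟩, ?_⟩
    change f = evK R z g / MvPolynomial.aeval z d
    rw [← hR, mul_div_cancel_left₀ _ h9]
  · obtain ⟨φ, hφ⟩ := exists_hom I hI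
    obtain ⟨h3, h4⟩ := evK_mem hz hg (P.derivative * H)
    have h5 : φ ⟨w⁻¹, hw'⟩ * φ ⟨w, h3⟩ = 1 := by
      rw [← map_mul φ, ← map_one φ]
      exact congrArg φ (Subtype.ext (inv_mul_cancel₀ hw0))
    have h6 : φ ⟨w, h3⟩ ≠ 0 := right_ne_zero_of_mul_eq_one h5
    have h7 := h6
    rw [h4 φ, ev_mul] at h7
    have h8 : ev P (fun i => φ ⟨z i, hz i⟩) (φ ⟨g, hg⟩) = 0 := by
      rw [← (evK_mem hz hg P).2 φ, ← map_zero φ]
      exact congrArg φ (Subtype.ext gen.root)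
    obtain ⟨y, hy, e1, e2⟩ := hsurj _ _ h8 (left_ne_zero_of_mul h7) (right_ne_zero_of_mul h7)
    have e3 : ff.val w y = φ ⟨w, h3⟩ := by rw [(hval y hy.1).2, e1, e2, h4 φ]
    have hAy := hle y hy.1 (e3 ▸ h6)
    refine ⟨y, loc_eq ff hAy hB _ (fun a => ?_) (geo.loc y hy)⟩
    have e4 : ∀ f (hf : f ∈ A), φ ⟨f, hf⟩ = ff.val f y := by
      intro f hf
      induction hf using Algebra.adjoin_induction with
      | mem f hf =>
        rcases hf with rfl | rfl | ⟨i, rfl⟩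
        · have h9 := val_inv ff (hval y hy.1).1 (e3 ▸ h6)
          rw [e3] at h9
          exact mul_right_cancel₀ h6 (h5.trans h9.symm)
        · exact e2.symm
        · rw [(hZ y hy.1 i).2, e1]
      | algebraMap c => exact (φ.commutes c).trans (ff.val_const y c).symm
      | add f f' hf hf' e5 e6 =>
        rw [ff.val_add y _ (hAy hf) _ (hAy hf'), ← e5, ← e6, ← map_add φ]
        rfl
      | mul f f' hf hf' e5 e6 =>
        rw [ff.val_mul y _ (hAy hf) _ (hAy hf'), ← e5, ← e6, ← map_mul φ]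
        rfl
    rw [hφ, ← e4 a a.2]
  · have hAx := hle x hx.1 hx'
    let φ : A →ₐ[ℂ] ℂ := (valHom ff x).comp (Subalgebra.inclusion hAx)
    have hI : (RingHom.ker φ).IsMaximal :=
      RingHom.ker_isMaximal_of_surjective φ fun c => ⟨algebraMap ℂ A c, φ.commutes c⟩
    exact ⟨RingHom.ker φ, hI, loc_eq ff hAx hB _ (fun a => RingHom.mem_ker) (geo.loc x hx)⟩

end Vale.Agent.P253Y.T3
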