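import Vale.Agent.P253Y.T3.Sk
import Vale.Agent.P253Y.Big.Bk
import Vale.Agent.P253Z.T2.Conn

/-!
# P253Y, T3: an algebraic ratio times a polynomial is holomorphic of polynomial growth
-/

open scoped Manifold ContDiff Bundle ENNReal Topology
open Bundle IsManifold MeasureTheory Set Metric Filter Vale.Agent.P253.Mfd
open Vale.Agent.P272.K (Cm Chart)
open Vale.Agent.P253Z Vale.Agent.P253Z.T2
open Vale.Agent.P253Z.VS (ev)

noncomputable section

namespace Vale.Agent.P253Y.T3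

variable {n : ℕ} {M : Type} [MetricSpace M] [ChartedSpace (Cm n) M]

namespace Ext

/-- the bound of Cauchy -/
theorem cauchy (r : ℕ → ℂ) (d : ℕ) {w : ℂ} (h : ∑ k ∈ Finset.range (d + 1), r k * w ^ k = 0) :
    ‖r d * w‖ ≤ ∑ k ∈ Finset.range (d + 1), ‖r k‖ := by
  have h0 : 0 ≤ ∑ k ∈ Finset.range d, ‖r k‖ := Finset.sum_nonneg fun _ _ => norm_nonneg _
  rw [Finset.sum_range_succ] at h ⊢
  rw [norm_mul]
  rcases le_total ‖w‖ 1 with hw | hw
  · exact (mul_le_of_le_one_right (norm_nonneg _) hw).trans (le_add_of_nonneg_left h0)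
  rcases d with _ | d
  · simp only [Finset.range_zero, Finset.sum_empty, pow_zero, mul_one, zero_add] at h
    simp [h]
  have h1 : ‖r (d + 1)‖ * ‖w‖ * ‖w‖ ^ d ≤ (∑ k ∈ Finset.range (d + 1), ‖r k‖) * ‖w‖ ^ d := by
    rw [mul_assoc, ← pow_succ', ← norm_pow, ← norm_mul, eq_neg_of_add_eq_zero_right h, norm_neg,
      Finset.sum_mul]
    refine norm_sum_le_of_le _ fun k hk => ?_
    rw [norm_mul, norm_pow]
    exact mul_le_mul_of_nonneg_left (pow_le_pow_right₀ hw (Finset.mem_range_succ_iff.1 hk))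
      (norm_nonneg _)
  exact (le_of_mul_le_mul_right h1 (pow_pos (one_pos.trans_le hw) d)).trans
    (le_add_of_nonneg_right (norm_nonneg _))

theorem root_le (R : Polynomial (Pz n)) : ∃ (C : ℝ) (N : ℕ), ∀ ζ w, ev R ζ w = 0 →
    ‖MvPolynomial.eval ζ R.leadingCoeff * w‖ ≤ C * (1 + ‖ζ‖) ^ N := by
  obtain ⟨C, N, -, h⟩ := Cn.pg_sum (Finset.range (R.natDegree + 1)) R.coeff
  refine ⟨C, N, fun ζ w hw => (cauchy (fun k => MvPolynomial.eval ζ (R.coeff k)) _ ?_).trans (h ζ)⟩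
  rwa [ev, Polynomial.eval_map, Polynomial.eval₂_eq_sum_range] at hw

variable (n M) in
/-- all the sections of the powers of the anticanonical bundle -/
def secs (m : ℕ) : Submodule ℂ (M → ℂ) where
  carrier := {s | IsSec n (-m) s}
  zero_mem' := fun e _ z _ => by
    have : co (-m) (0 : M → ℂ) e = fun _ => 0 := by funext z; simp [co]
    rw [this]; exact analyticAt_const
  add_mem' := fun {a b} ha hb e he z hz => by
    have : co (-m) (a + b) e = co (-m) a e + co (-m) b e := by funext z; simp [co, mul_add]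
    rw [this]; exact (ha e he z hz).add (hb e he z hz)
  smul_mem' := fun c a ha e he z hz => by
    have : co (-m) (c • a) e = c • co (-m) a e := by funext z; simp [co, mul_left_comm]
    rw [this]; exact (ha e he z hz).const_smul

theorem gr_secs (a : B1a n M) : VS.Gr (secs n M) := by
  refine ⟨fun e _ z _ => ?_, fun m l s hs t ht => ?_⟩
  · have : co (-((0 : ℕ) : ℤ)) (1 : M → ℂ) e = fun _ => 1 := by funext z; simp [co]
    rw [this]
    exact analyticAt_const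
  · have := a.sec_mul _ _ _ _ hs ht
    rwa [show (-(m : ℤ) + -(l : ℤ)) = -((m + l : ℕ) : ℤ) by push_cast; ring] at this

end Ext

variable [RiemannianBundle (fun x : M => TangentSpace 𝓘(ℝ, Cm n) x)] [MeasurableSpace M]
  {μ : Measure M}

open Ext in
theorem ext (a : B1a n M) (et : ET n M) (ffe : FFE n M) : EXT n μ := by
  intro p F A k s t R hs ht t0 R0 hR
  obtain ⟨K, _, _, ⟨ff⟩⟩ := ffe (secs n M) (fun _ _ h => h) (gr_secs a)
  obtain ⟨x₀, hx₀⟩ := Function.ne_iff.1 A.σ_ne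
  have s0 : A.s₀ ≠ 0 := Function.ne_iff.2 ⟨x₀, A.ne₀ x₀ hx₀⟩
  choose z hz using fun i => ff.rat A.m (A.s i) (A.hs i).1 A.s₀ A.h₀.1 s0
  obtain ⟨g, hg⟩ := ff.rat k s hs t ht t0
  obtain ⟨C, N, hC⟩ := root_le R
  obtain ⟨f, h1⟩ : ∃ f : K, ∀ y, A.s₀ y ≠ 0 → t y ≠ 0 →
      ff.val f y = MvPolynomial.eval (Phi A.s₀ A.s y) R.leadingCoeff * (s y / t y) := by
    refine ⟨MvPolynomial.aeval z R.leadingCoeff * g, fun y h0 hy => ?_⟩
    obtain ⟨b1, b2⟩ := Big.Bk.val_aeval ff (ζ := Phi A.s₀ A.s y) (fun i => hz i y h0)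
      R.leadingCoeff
    rw [ff.val_mul y _ b1 _ (hg y hy).1, b2, (hg y hy).2]
  have ne : ∀ y, A.s₀ y ≠ 0 → ∀ᶠ w in 𝓝 y, A.s₀ w ≠ 0 :=
    fun y hy => (et.cont _ _ _ A.h₀.1 A.h₀.1 y hy).2
  have ct : ∀ y, A.s₀ y ≠ 0 → ContinuousAt (fun w => C * (1 + ‖Phi A.s₀ A.s w‖) ^ N) y := by
    intro y hy
    have : ContinuousAt (Phi A.s₀ A.s) y :=
      continuousAt_pi.2 fun i => (et.cont _ _ _ (A.hs i).1 A.h₀.1 y hy).1
    exact continuousAt_const.mul ((continuousAt_const.add this.norm).pow N)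
  have h2 : ∀ y, A.s₀ y ≠ 0 → f ∈ ff.O y → ‖ff.val f y‖ ≤ C * (1 + ‖Phi A.s₀ A.s y‖) ^ N := by
    intro y hy hf
    by_contra hn
    refine t0 (a.ident _ t ht y ?_)
    filter_upwards [(ct y hy).eventually_lt (Big.Bk.val_cont a ff hf).norm (not_le.1 hn),
      ne y hy] with w b1 b2
    by_contra b3
    rw [h1 w b2 b3] at b1
    exact b1.not_ge (hC _ _ (hR w b2 b3))
  have h3 : ∀ x, A.s₀ x ≠ 0 → f ∈ ff.O x := fun x hx => by
    refine ff.bdd x f (C * (1 + ‖Phi A.s₀ A.s x‖) ^ N + 1) ?_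
    filter_upwards [(ct x hx).eventually_lt continuousAt_const (lt_add_one _), ne x hx]
      with y b1 b2 b3 using (h2 y b2 b3).trans b1.le
  exact ⟨R.leadingCoeff, ff.val f, C, N, Polynomial.leadingCoeff_ne_zero.2 R0, fun x hx =>
    ⟨ff.hol x f (h3 x (A.ne₀ x hx)), h2 x (A.ne₀ x hx) (h3 x (A.ne₀ x hx)), h1 x (A.ne₀ x hx)⟩⟩

end Vale.Agent.P253Y.T3
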