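import Vale.Agent.P253Y.T3.Sk

/-!
# P253Y, T3: a generator is a primitive element
-/

open scoped Manifold ContDiff Bundle ENNReal Topology
open Bundle IsManifold MeasureTheory Set Metric Filter Vale.Agent.P253.Mfd
open Vale.Agent.P272.K (Cm Chart)
open Vale.Agent.P253Z Vale.Agent.P253Z.T2
open Vale.Agent.P253Z.VS (ev)

noncomputable section

namespace Vale.Agent.P253Y.T3

variable {n : ℕ} {M : Type} [MetricSpace M] [ChartedSpace (Cm n) M]

namespace Primg

variable {K : Type} [Field K] [Algebra ℂ K] {T : ℕ → Submodule ℂ (M → ℂ)} {ff : FF n T K}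
  {s₀ : M → ℂ} {s : Fin n → M → ℂ} {z : Fin n → K}

theorem val_z (hz : IsZ ff s₀ s z) {x : M} (hx : s₀ x ≠ 0) :
    (fun i => ff.val (z i) x) = Phi s₀ s x := funext fun i => (hz x hx i).2

/-- values of polynomials in the coordinates -/
theorem val_d (hz : IsZ ff s₀ s z) {x : M} (hx : s₀ x ≠ 0) (d : Pz n) :
    MvPolynomial.aeval z d ∈ ff.O x ∧
      ff.val (MvPolynomial.aeval z d) x = MvPolynomial.eval (Phi s₀ s x) d :=
  val_z hz hx ▸ val_aeval ff (fun i => (hz x hx i).1) d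

/-- values of polynomials in the coordinates and one more element -/
theorem val_R (hz : IsZ ff s₀ s z) {x : M} (hx : s₀ x ≠ 0) {g : K} (hg : g ∈ ff.O x)
    (H : Polynomial (Pz n)) : evK H z g ∈ ff.O x ∧
      ff.val (evK H z g) x = ev H (Phi s₀ s x) (ff.val g x) :=
  val_z hz hx ▸ val_evK ff (fun i => (hz x hx i).1) hg H

/-- integral elements have the same values at two points with the same image -/
theorem val_eq (hz : IsZ ff s₀ s z) (hG : Geoy ff s₀ s z) {g : K} {P : Polynomial (Pz n)}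
    (h : Gen z g P) {x y : M} (hx : s₀ x ≠ 0) (hy : s₀ y ≠ 0) (h1 : Phi s₀ s x = Phi s₀ s y)
    (h2 : ff.val g x = ff.val g y) (h3 : ev P.derivative (Phi s₀ s x) (ff.val g x) ≠ 0) {b : K}
    (hb : b ∈ icB z) : ff.val b x = ff.val b y := by
  obtain ⟨R, hR⟩ := h.cond b hb
  have key : ∀ w, s₀ w ≠ 0 → ev P.derivative (Phi s₀ s w) (ff.val g w) * ff.val b w =
      ev R (Phi s₀ s w) (ff.val g w) := fun w hw => by
    have a1 := val_R hz hw (hG.le w hw h.mem) P.derivative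
    rw [← a1.2, ← ff.val_mul w _ a1.1 _ (hG.le w hw hb), hR, (val_R hz hw (hG.le w hw h.mem) R).2]
  refine mul_left_cancel₀ h3 ?_
  rw [key x hx, h1, h2, key y hy]

end Primg

variable [RiemannianBundle (fun x : M => TangentSpace 𝓘(ℝ, Cm n) x)] [MeasurableSpace M]
  {μ : Measure M}

open Primg in
theorem primg (A : All n μ) : PRIMG n μ := by
  intro p F K _ _ ff m s₀ s z _ hz hG g P h
  have inj : ∀ x y, Et s₀ s x → Et s₀ s y → Phi s₀ s x = Phi s₀ s y → ff.val g x = ff.val g y →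
      ev P.derivative (Phi s₀ s x) (ff.val g x) ≠ 0 → x = y := fun x y hx hy h1 h2 h3 => by
    by_contra hne
    obtain ⟨k, hk, a', b', ha', hb', c1, c2, c3, c4⟩ := A.pk2 x y hne
    obtain ⟨f, hf⟩ := ff.rat k a' (tame_of_inH F hk ha') b' (tame_of_inH F hk hb')
      fun e => c3 (congrFun e x)
    obtain ⟨a, ha, b, hb, d1, d2⟩ := hG.loc x hx f (hf x c3).1
    have e1 := val_eq hz hG h hx.1 hy.1 h1 h2 h3 ha
    rw [← d2, ff.val_mul x _ (hf x c3).1 _ (hG.le x hx.1 hb),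
      ff.val_mul y _ (hf y c4).1 _ (hG.le y hy.1 hb), (hf x c3).2, (hf y c4).2, c1, zero_div,
      zero_mul, ← val_eq hz hG h hx.1 hy.1 h1 h2 h3 hb] at e1
    exact mul_ne_zero (div_ne_zero c2 c4) d1 e1.symm
  obtain ⟨l, u, hu, v, hv, v0, hg⟩ := ff.surj g
  refine ⟨inj, ⟨l, u, v, P, hu, hv, v0, h.monic, h.irr, fun x hx hv => ?_,
    fun x y hx hy vx vy h1 h2 h3 => ?_, fun k a ha b hb b0 => ?_⟩, rfl,
    fun x _ hv => (hg x hv).2.symm⟩
  · rw [← (hg x hv).2, ← (val_R hz hx (hg x hv).1 P).2, h.root]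
    simpa using ff.val_const x 0
  · rw [← (hg x vx).2] at h2 h3
    exact inj x y hx hy h1 (h2.trans (hg y vy).2.symm) h3
  · obtain ⟨f, hf⟩ := ff.rat k a ha b hb b0
    obtain ⟨d, hd, R, hR⟩ := h.gen f
    refine ⟨d, hd, R, fun x hx vx bx => ?_⟩
    rw [← (hg x vx).2, ← (hf x bx).2, ← (val_R hz hx (hg x vx).1 R).2, ← hR,
      ff.val_mul x _ (val_d hz hx d).1 _ (hf x bx).1, (val_d hz hx d).2]

end Vale.Agent.P253Y.T3
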