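import Vale.Agent.P253Y.T3x.Main
import Vale.Agent.P253Y.T3.Primg
import Vale.Agent.P253Z.T2.Cut

/-!
# P253Y, T3: the local rings at the etale points
-/

open scoped Manifold ContDiff Bundle ENNReal Topology
open Bundle IsManifold MeasureTheory Set Metric Filter Vale.Agent.P253.Mfd
open Vale.Agent.P272.K (Cm Chart)
open Vale.Agent.P253Z Vale.Agent.P253Z.T2
open Vale.Agent.P253Z.VS (ev)
open Vale.Agent.P297Z.Sf (loc)

noncomputable section

namespace Vale.Agent.P253Y.T3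

namespace Gy

variable {n : ℕ} {K : Type} [Field K] [Algebra ℂ K]

theorem lift_monic {z : Fin n → K} {f : K} (h : f ∈ icB z) :
    ∃ P : Polynomial (Pz n), P.Monic ∧ evK P z f = 0 := by
  obtain ⟨p, hp, h0⟩ : IsIntegral (Algebra.adjoin ℂ (range z)) f := h
  let ψ : Pz n →ₐ[ℂ] Algebra.adjoin ℂ (range z) := (MvPolynomial.aeval z).codRestrict _ fun d => by
    rw [Algebra.adjoin_range_eq_range_aeval]; exact ⟨d, rfl⟩
  have hψ : Function.Surjective ψ.toRingHom := by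
    rintro ⟨w, hw⟩
    rw [Algebra.adjoin_range_eq_range_aeval] at hw
    obtain ⟨d, hd⟩ := hw
    exact ⟨d, Subtype.ext hd⟩
  obtain ⟨q, h1, -, h2⟩ := Polynomial.lifts_and_degree_eq_and_monic
    ((Polynomial.mem_lifts p).2 (Polynomial.map_surjective _ hψ p)) hp
  refine ⟨q, h2, ?_⟩
  rw [← h1, Polynomial.eval₂_map] at h0
  exact h0

theorem fin_dim {z : Fin n → K} {g : K} {P : Polynomial (Pz n)} (hP : P.Monic)
    (h0 : evK P z g = 0) (hi : ∀ d : Pz n, d ≠ 0 → MvPolynomial.aeval z d ≠ 0)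
    (hg : ∀ f : K, ∃ d : Pz n, d ≠ 0 ∧ ∃ R, MvPolynomial.aeval z d * f = evK R z g) :
    FiniteDimensional (IntermediateField.adjoin ℂ (range z)) K := by
  set L := IntermediateField.adjoin ℂ (range z)
  let ψ : Pz n →ₐ[ℂ] L := (MvPolynomial.aeval z).codRestrict L.toSubalgebra fun d =>
    IntermediateField.algebra_adjoin_le_adjoin ℂ (range z) (by
      rw [Algebra.adjoin_range_eq_range_aeval]; exact ⟨d, rfl⟩)
  have e : ∀ R : Polynomial (Pz n), Polynomial.aeval g (R.map ψ.toRingHom) = evK R z g :=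
    fun R => by rw [Polynomial.aeval_def, Polynomial.eval₂_map]; rfl
  have h1 : IsIntegral L g := ⟨P.map ψ.toRingHom, hP.map _, (e P).trans h0⟩
  have h2 : Algebra.adjoin L {g} = ⊤ := by
    refine top_le_iff.1 fun f _ => ?_
    obtain ⟨d, hd, R, hR⟩ := hg f
    have h3 : f = algebraMap L K (ψ d)⁻¹ * evK R z g := by
      rw [← hR, map_inv₀]
      exact ((inv_mul_cancel_left₀ (hi d hd) f)).symm
    rw [h3, ← e]
    exact mul_mem (Subalgebra.algebraMap_mem _ _) (Polynomial.aeval_mem_adjoin_singleton _ _)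
  have h3 := h1.fg_adjoin_singleton
  rw [h2] at h3
  exact ⟨h3⟩

variable {M : Type} [MetricSpace M] [ChartedSpace (Cm n) M] {T : ℕ → Submodule ℂ (M → ℂ)}
  {ff : FF n T K} {s₀ : M → ℂ} {s : Fin n → M → ℂ} {z : Fin n → K} {m : ℕ}

theorem val_zero (y : M) : ff.val 0 y = 0 := by simpa using ff.val_const y 0

theorem val_unit {y : M} {f : K} (h0 : f ≠ 0) (h1 : f ∈ ff.O y) (h2 : f⁻¹ ∈ ff.O y) :
    ff.val f y ≠ 0 := fun h => by
  have h3 := ff.val_mul y f h1 _ h2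
  rw [mul_inv_cancel₀ h0, h, zero_mul] at h3
  have h4 := ff.val_const y 1
  rw [map_one, h3] at h4
  exact zero_ne_one h4

theorem val_loc {y : M} {B : Subalgebra ℂ K} {I : Ideal B} {hI : I.IsPrime}
    (h : ff.O y = loc B I hI) {b : B} (hb : b ∉ I) : ff.val b y ≠ 0 := by
  have h0 : (b : K) ≠ 0 := fun e => hb (by rw [show b = 0 from Subtype.ext e]; exact I.zero_mem)
  refine val_unit h0 (h ▸ P297Z.Sf.le_loc B I hI b.2) ?_
  rw [h]
  exact ⟨1, b, hb, inv_mul_cancel₀ h0⟩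

theorem le (et : ET n M) (h₀ : IsSec n (-m) s₀) (hs : ∀ i, IsSec n (-m) (s i))
    (hz : IsZ ff s₀ s z) (y : M) (hy : s₀ y ≠ 0) : icB z ≤ ff.O y := by
  intro f hf
  obtain ⟨P, hP, h0⟩ := lift_monic hf
  obtain ⟨B, hB⟩ := CutA.root_bd hP (isCompact_closedBall (Phi s₀ s y) 1)
  have hΦ : ContinuousAt (Phi s₀ s) y :=
    continuousAt_pi.2 fun i => (et.cont _ (s i) s₀ (hs i) h₀ y hy).1
  refine ff.bdd y f B ?_
  filter_upwards [(et.cont _ s₀ s₀ h₀ h₀ y hy).2, hΦ (closedBall_mem_nhds _ one_pos)]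
    with w h1 h2 h3
  refine hB _ h2 _ ?_
  rw [← (Primg.val_R hz h1 h3 P).2, h0, val_zero]

theorem indep (et : ET n M) (h₀ : IsSec n (-m) s₀) (hs : ∀ i, IsSec n (-m) (s i))
    (hz : IsZ ff s₀ s z) {x : M} (hx : Et s₀ s x) (d : Pz n) (hd : d ≠ 0) :
    MvPolynomial.aeval z d ≠ 0 := by
  obtain ⟨V, ρ, j, -, -, hρ, -, h4, h5⟩ := et.inv m s₀ s h₀ hs x hx
  obtain ⟨w, hw, h7⟩ := exists_ne hd _ hρ
  intro h
  have h8 := (Primg.val_d hz (h5 _ (h4 w hw).1).1.1 d).2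
  rw [h, val_zero, (h4 w hw).2] at h8
  exact h7 h8.symm

end Gy

open Gy

theorem geoy {M : Type} [MetricSpace M] [ChartedSpace (Cm 2) M]
    [RiemannianBundle (fun x : M => TangentSpace 𝓘(ℝ, Cm 2) x)] [MeasurableSpace M]
    {μ : Measure M} (a : B1a 2 M) (et : ET 2 M) (prim : PRIM 2 μ) : GEOY μ := by
  rintro p F K _ _ ff m s₀ s z ⟨hm, h₀, hs, hE⟩ hz
  have hs' := fun i => (hs i).1
  obtain ⟨x₀, hx₀⟩ := id hE
  have hi := indep et h₀.1 hs' hz hx₀
  have hle := le et h₀.1 hs' hz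
  obtain ⟨D⟩ := prim p F m s₀ s hm h₀ hs hE
  obtain ⟨g, hg⟩ := ff.rat D.l D.u D.hu D.v D.hv D.v_ne
  have gr := gr_tame a F
  -- an identity that holds where three sections do not vanish holds in the field
  have zero : ∀ (k : ℕ) (b : M → ℂ), b ∈ F.Tame k → b ≠ 0 → ∀ f : K,
      (∀ y, s₀ y ≠ 0 → D.v y ≠ 0 → b y ≠ 0 → f ∈ ff.O y ∧ ff.val f y = 0) → f = 0 := by
    intro k b hb b0 f hf
    obtain ⟨y₁, hy₁⟩ := Function.ne_iff.1 b0
    obtain ⟨y, ⟨h1, h2⟩, h3⟩ := ((et.dense m s₀ s hm h₀.1 hs' hE D.l D.v D.hv.1 D.v_ne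
      y₁).and_eventually (et.cont _ b b hb.1 hb.1 y₁ hy₁).2).exists
    refine ff.inj y f (hf y h1.1 h2 h3).1 ?_
    filter_upwards [(et.cont _ s₀ s₀ h₀.1 h₀.1 y h1.1).2,
      (et.cont _ D.v D.v D.hv.1 D.hv.1 y h2).2, (et.cont _ b b hb.1 hb.1 y h3).2] with w e1 e2 e3
    exact (hf w e1 e2 e3).2
  have fin : FiniteDimensional (IntermediateField.adjoin ℂ (range z)) K := by
    refine fin_dim (g := g) D.monic (zero _ _ D.hv D.v_ne _ fun y e1 e2 _ => ?_) hi fun f => ?_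
    · obtain ⟨h1, h2⟩ := Primg.val_R hz e1 (hg y e2).1 D.P
      exact ⟨h1, by rw [h2, (hg y e2).2, D.root y e1 e2]⟩
    · obtain ⟨k, u, hu, b, hb, b0, hf⟩ := ff.surj f
      obtain ⟨d, hd, R, hR⟩ := D.gen k u hu b hb b0
      refine ⟨d, hd, R, sub_eq_zero.1 (zero _ _ hb b0 _ fun y e1 e2 e3 => ?_)⟩
      obtain ⟨h1, h2⟩ := Primg.val_R hz e1 (hg y e2).1 R
      obtain ⟨h3, h4⟩ := Primg.val_d hz e1 d
      have h5 := mul_mem h3 (hf y e3).1
      refine ⟨sub_mem h5 h1, ?_⟩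
      have h6 := map_sub (valHom ff y) ⟨_, h5⟩ ⟨_, h1⟩
      refine h6.trans (sub_eq_zero.2 ?_)
      change ff.val _ y = ff.val _ y
      rw [ff.val_mul y _ h3 _ (hf y e3).1, h4, (hf y e3).2, h2, (hg y e2).2, hR y e1 e2 e3]
  have bij : ∀ y, Et s₀ s y → Function.Bijective (fderiv ℂ
      (fun w i => ff.val (z i) ((chartAt (Cm 2) y).symm w)) (chartAt (Cm 2) y y)) := by
    intro y hy
    have hc := (chartAt (Cm 2) y).continuousAt_symm ((chartAt (Cm 2) y).map_source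
      (mem_chart_source _ y))
    rw [ContinuousAt, (chartAt (Cm 2) y).left_inv (mem_chart_source _ y)] at hc
    have h1 : (fun w i => ff.val (z i) ((chartAt (Cm 2) y).symm w)) =ᶠ[𝓝 (chartAt (Cm 2) y y)]
        fun w => Phi s₀ s ((chartAt (Cm 2) y).symm w) := by
      filter_upwards [hc (et.cont _ s₀ s₀ h₀.1 h₀.1 y hy.1).2] with w hw
      exact Primg.val_z hz hw
    rw [h1.fderiv_eq]
    exact hy.2 _ (a.chart y) (mem_chart_source _ y)
  have X := fun (y : M) (hy : Et s₀ s y) => T3x.geox M F.Tame (fun _ _ h => h.1) K ff z y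
    (fun i => (hz y hy.1 i).1) _ (a.chart y) (mem_chart_source _ y) (bij y hy) fin
  refine ⟨hle, fun y hy f hf => ?_, fun y hy => ?_, fun x hx => ?_⟩
  · obtain ⟨-, -, ⟨I, hI, h1⟩, -⟩ := X y hy
    obtain ⟨u, b, h2, h3⟩ := h1 ▸ hf
    exact ⟨u, u.2, b, b.2, val_loc h1 h2, h3⟩
  · obtain ⟨h1, h2, h3, h4⟩ := X y hy
    exact ⟨⟨_, h1, h2, h3⟩, _, _, h4⟩
  · rw [← Primg.val_z hz hx.1]
    exact T3x.sel ff z x (fun i => (hz x hx.1 i).1) _ (a.chart x) (mem_chart_source _ x)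
      (bij x hx) fin

/-- the same, in the form with two more hypotheses -/
theorem geoy_of {M : Type} [MetricSpace M] [ChartedSpace (Cm 2) M]
    [RiemannianBundle (fun x : M => TangentSpace 𝓘(ℝ, Cm 2) x)] [MeasurableSpace M]
    {μ : Measure M} (a : B1a 2 M) (et : ET 2 M) (prim : PRIM 2 μ) (_ : GEOX M) (_ : GSEL 2) :
    GEOY μ := geoy a et prim

end Vale.Agent.P253Y.T3
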