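import Vale.Agent.P253Y.T3.Sk2
import Mathlib.RingTheory.Smooth.IntegralClosure

/-!
# P253Y, T3: a generator with a simple root at an unramified point
-/

open Set Polynomial
open Vale.Agent.P272.K (Cm)
open Vale.Agent.P253Z Vale.Agent.P253Z.T2
open Vale.Agent.P253Z.VS (ev)

noncomputable section

namespace Vale.Agent.P253Y.T3

namespace Gs

variable {A B K F : Type} [CommRing A] [CommRing B] [Algebra A B] [Field F]

theorem hom_aeval (φ : B →+* F) {g : B} (h1 : φ g = 1) (Q : A[X]) :
    φ (aeval g Q) = (Q.map (φ.comp (algebraMap A B))).eval 1 := by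
  rw [aeval_def, hom_eval₂, eval_map, h1]

/-- the lemma of Nakayama over `A[g]` -/
theorem nak [Module.Finite A B] (φ : B →+* F) {g : B} (h1 : φ g = 1)
    (hs : ∀ b, ∃ c : A, φ (algebraMap A B c) = φ b)
    (hg : ∀ h, φ h = 0 →
      g * h ∈ Ideal.map (algebraMap A B) (RingHom.ker (φ.comp (algebraMap A B)))) :
    ∃ U : A[X], φ (aeval g U) = 1 ∧ ∀ b, ∃ R : A[X], aeval g U * b = aeval g R := by
  let C := Algebra.adjoin A {g}
  have : Module.Finite C B := Module.Finite.of_restrictScalars_finite A C B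
  let I : Ideal C := RingHom.ker (φ.comp (algebraMap C B))
  have hC : ∀ c : C, ∃ R : A[X], aeval g R = c := fun c => by
    have h : (c : B) ∈ Algebra.adjoin A {g} := c.2
    rwa [Algebra.adjoin_singleton_eq_range_aeval] at h
  have h2 : ∀ y ∈ Ideal.map (algebraMap A B) (RingHom.ker (φ.comp (algebraMap A B))),
      ∀ b, b * y ∈ I • (⊤ : Submodule C B) := by
    intro y hy
    induction hy using Submodule.span_induction with
    | mem y hy =>
      obtain ⟨a, ha, rfl⟩ := hy
      intro b
      have : b * algebraMap A B a = algebraMap A C a • b := mul_comm _ _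
      rw [this]
      exact Submodule.smul_mem_smul (show algebraMap A C a ∈ I from ha) Submodule.mem_top
    | zero => simp
    | add y y' _ _ e e' => exact fun b => by rw [mul_add]; exact add_mem (e b) (e' b)
    | smul c y _ e => exact fun b => by rw [smul_eq_mul, ← mul_assoc]; exact e _
  obtain ⟨r, r1, r2⟩ := Submodule.exists_sub_one_mem_and_smul_le_of_fg_of_le_sup
    (I := I) (N := Submodule.span C {(1 : B)}) (N' := ⊤) (P := ⊤) Module.Finite.fg_top le_rfl (by
    intro b _
    obtain ⟨c, hc⟩ := hs b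
    let g' : C := ⟨g, Algebra.self_mem_adjoin_singleton A g⟩
    have e : b = algebraMap A C c • (1 : B) + ((1 - g') • (b - algebraMap A B c) +
        1 * (g * (b - algebraMap A B c))) := by
      change b = algebraMap A B c * 1 + ((1 - g) * (b - algebraMap A B c) + _)
      ring
    rw [e]
    refine Submodule.add_mem_sup (Submodule.smul_mem _ _ (Submodule.mem_span_singleton_self _))
      (add_mem (Submodule.smul_mem_smul ?_ Submodule.mem_top) (h2 _ (hg _ ?_) _))
    · change φ (1 - g) = 0
      rw [map_sub, map_one, h1, sub_self]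
    · rw [map_sub, hc, sub_self])
  obtain ⟨U, hU⟩ := hC r
  refine ⟨U, ?_, fun b => ?_⟩
  · have h3 : φ ((r : B) - 1) = 0 := r1
    rwa [map_sub, map_one, sub_eq_zero, ← hU] at h3
  · obtain ⟨c, hc⟩ := Submodule.mem_span_singleton.1
      (r2 (Submodule.smul_mem_pointwise_smul b r ⊤ Submodule.mem_top))
    obtain ⟨R, hR⟩ := hC c
    refine ⟨R, ?_⟩
    rw [hU, hR]
    exact hc.symm.trans (mul_one (c : B))

/-- the root is simple -/
theorem simple (φ : B →+* F) {g : B} (h1 : φ g = 1)
    (hg : g * (g - 1) ∈ Ideal.map (algebraMap A B) (RingHom.ker (φ.comp (algebraMap A B))))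
    {U P : A[X]} (hU : φ (aeval g U) = 1) (hb : ∀ b, ∃ R : A[X], aeval g U * b = aeval g R)
    (h0 : aeval g P = 0) (hP : ∀ Q : A[X], aeval g Q = 0 → P ∣ Q) :
    ((derivative P).map (φ.comp (algebraMap A B))).eval 1 ≠ 0 := by
  have h2 : ∀ y ∈ Ideal.map (algebraMap A B) (RingHom.ker (φ.comp (algebraMap A B))),
      ∀ b, ∃ R : A[X], R.map (φ.comp (algebraMap A B)) = 0 ∧ aeval g U * (b * y) = aeval g R := by
    intro y hy
    induction hy using Submodule.span_induction with
    | mem y hy =>
      obtain ⟨a, ha, rfl⟩ := hy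
      intro b
      obtain ⟨R, hR⟩ := hb b
      refine ⟨R * C a, ?_, by rw [map_mul, aeval_C, ← hR, mul_assoc]⟩
      rw [Polynomial.map_mul, map_C, (RingHom.mem_ker.1 ha), C_0, mul_zero]
    | zero => exact fun b => ⟨0, by simp, by simp⟩
    | add y y' _ _ e e' =>
      intro b
      obtain ⟨R, r1, r2⟩ := e b
      obtain ⟨R', r3, r4⟩ := e' b
      exact ⟨R + R', by rw [Polynomial.map_add, r1, r3, add_zero],
        by rw [map_add, ← r2, ← r4, mul_add, mul_add]⟩
    | smul c y _ e => exact fun b => by rw [smul_eq_mul, ← mul_assoc b]; exact e _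
  obtain ⟨R, r1, r2⟩ := h2 _ hg 1
  obtain ⟨S, hS⟩ := hP (U * (X * (X - 1)) - R) (by simp [← r2])
  have h3 := congrArg (fun Q => (derivative (Q.map (φ.comp (algebraMap A B)))).eval 1) hS
  rw [hom_aeval φ h1] at hU
  have h4 := hom_aeval φ h1 P
  rw [h0, map_zero] at h4
  intro h5
  rw [← derivative_map] at h5
  simp only [Polynomial.map_sub, Polynomial.map_mul, r1, derivative_mul, eval_add, eval_mul, h5,
    ← h4, sub_zero, hU, map_X, Polynomial.map_one, eval_sub, eval_X, eval_one, derivative_sub,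
    derivative_X, derivative_one] at h3
  simp at h3

theorem core [IsDomain A] [IsIntegrallyClosed A] [Field K] [Algebra B K] [Algebra A K]
    [IsScalarTower A B K] [IsFractionRing B K] [Module.Finite A B]
    (hi : Function.Injective (algebraMap A K)) (φ : B →+* F) {g : B} (h1 : φ g = 1)
    (hs : ∀ b, ∃ c : A, φ (algebraMap A B c) = φ b)
    (hg : ∀ h, φ h = 0 →
      g * h ∈ Ideal.map (algebraMap A B) (RingHom.ker (φ.comp (algebraMap A B)))) :
    ∃ P : A[X], P.Monic ∧ (∀ R : A[X], R ≠ 0 → R.natDegree < P.natDegree →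
        ∃ (U V : A[X]) (N : A), N ≠ 0 ∧ U * P + V * R = C N) ∧
      aeval (algebraMap B K g) P = 0 ∧
      (∀ f : K, ∃ d : A, d ≠ 0 ∧ ∃ R : A[X], algebraMap A K d * f = aeval (algebraMap B K g) R) ∧
      (∀ b : B, ∃ R : A[X], aeval (algebraMap B K g) (derivative P) * algebraMap B K b =
        aeval (algebraMap B K g) R) ∧
      ((derivative P).map (φ.comp (algebraMap A B))).eval 1 ≠ 0 := by
  obtain ⟨U, u1, u2⟩ := nak φ h1 hs hg
  have : FaithfulSMul A K := (faithfulSMul_iff_algebraMap_injective A K).2 hi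
  let L := FractionRing A
  let _ : Algebra L K := FractionRing.liftAlgebra A K
  have : IsScalarTower A L K := FractionRing.isScalarTower_liftAlgebra A K
  have hinj : Function.Injective (algebraMap A L) := IsFractionRing.injective A L
  have hB : Function.Injective (algebraMap B K) := IsFractionRing.injective B K
  have hint : ∀ b : B, IsIntegral A (algebraMap B K b) := fun b =>
    (Algebra.IsIntegral.isIntegral (R := A) b).algebraMap
  set y := algebraMap B K g with hy
  have hyi : IsIntegral A y := hint g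
  have hm := minpoly.isIntegrallyClosed_eq_field_fractions' L hyi
  have clear : ∀ p : L[X], ∃ d : A, d ≠ 0 ∧ ∃ Q : A[X],
      Q.map (algebraMap A L) = C (algebraMap A L d) * p := by
    intro p
    obtain ⟨b, hb, hp⟩ := IsLocalization.integerNormalization_spec (nonZeroDivisors A) p
    refine ⟨b, nonZeroDivisors.ne_zero hb, _, hp.trans ?_⟩
    rw [← IsScalarTower.algebraMap_smul L b p, smul_eq_C_mul]
  have hmem : ∀ b : B, algebraMap B K (aeval g U * b) ∈ (aeval y : L[X] →ₐ[L] K).range := by
    intro b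
    obtain ⟨R, hR⟩ := u2 b
    exact ⟨R.map (algebraMap A L), by
      rw [hR, ← aeval_algebraMap_apply]; exact aeval_map_algebraMap L y R⟩
  have hu : algebraMap B K (aeval g U) ≠ 0 := fun e => by
    rw [map_eq_zero_iff _ hB] at e
    rw [e, map_zero] at u1
    exact zero_ne_one u1
  have hsur : Function.Surjective (aeval y : L[X] →ₐ[L] K) := fun f => by
    obtain ⟨a, b, -, rfl⟩ := IsFractionRing.div_surjective (A := B) f
    have h2 := mul_mem (hmem a) ((hint _).tower_top (A := L).inv_mem (hmem b))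
    rwa [map_mul, map_mul, ← div_eq_mul_inv, mul_div_mul_left _ _ hu] at h2
  refine ⟨minpoly A y, minpoly.monic hyi, fun R r1 r2 => ?_, minpoly.aeval A y, fun f => ?_,
    fun b => ?_, simple φ h1 (hg _ (by rw [map_sub, h1, map_one, sub_self])) u1 u2 ?_ ?_⟩
  · have h1 : R.map (algebraMap A L) ≠ 0 := (Polynomial.map_ne_zero_iff hinj).2 r1
    have h2 : ¬ minpoly L y ∣ R.map (algebraMap A L) := fun h3 => by
      have h4 := natDegree_le_of_dvd h3 h1
      rw [hm, natDegree_map_eq_of_injective hinj, natDegree_map_eq_of_injective hinj] at h4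
      omega
    obtain ⟨u, v, huv⟩ := (minpoly.irreducible hyi.tower_top).coprime_iff_not_dvd.2 h2
    obtain ⟨d, d0, U, hU⟩ := clear u
    obtain ⟨d', d0', V, hV⟩ := clear v
    refine ⟨C d' * U, C d * V, d * d', mul_ne_zero d0 d0', map_injective _ hinj ?_⟩
    simp only [Polynomial.map_add, Polynomial.map_mul, map_C, map_mul, hU, hV, ← hm]
    linear_combination (C (algebraMap A L d) * C (algebraMap A L d')) * huv
  · obtain ⟨p, rfl⟩ := hsur f
    obtain ⟨d, d0, Q, hQ⟩ := clear p
    refine ⟨d, d0, Q, ?_⟩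
    rw [← aeval_map_algebraMap L y Q, hQ, map_mul, aeval_C, ← IsScalarTower.algebraMap_apply]
  · obtain ⟨q, q1, q2⟩ := exists_derivative_mul_eq_and_isIntegral_coeff
      (φ := (aeval y : L[X] →ₐ[L] K).restrictScalars A) hsur (f := minpoly L y)
      (minpoly.monic hyi.tower_top)
      (fun i => by rw [hm, coeff_map]; exact isIntegral_algebraMap)
      (minpoly.ker_aeval_eq_span_minpoly L y) (hint b)
    obtain ⟨R, hR⟩ := (mem_lifts q).1 ((lifts_iff_coeff_lifts (f := algebraMap A L) q).2 fun i =>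
      IsIntegrallyClosed.isIntegral_iff.1 (q2 i))
    refine ⟨R, ?_⟩
    rw [← aeval_map_algebraMap L y R, hR, ← aeval_map_algebraMap L y, ← derivative_map, ← hm]
    exact q1
  · apply hB
    rw [← aeval_algebraMap_apply, map_zero]
    exact minpoly.aeval A y
  · intro Q hQ
    refine minpoly.isIntegrallyClosed_dvd hyi ?_
    rw [hy, aeval_algebraMap_apply, hQ, map_zero]

end Gs

theorem gsel (n : ℕ) : GSEL n := by
  intro K _ _ z hz hft hfr φ ζ ε h1 h2 h3
  have hm : ∀ i, z i ∈ icB z := fun i =>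
    isIntegral_algebraMap (x := (⟨z i, Algebra.subset_adjoin ⟨i, rfl⟩⟩ : Algebra.adjoin ℂ (range z)))
  let ψ : Pz n →ₐ[ℂ] icB z := MvPolynomial.aeval fun i => ⟨z i, hm i⟩
  let _ : Algebra (Pz n) K := (MvPolynomial.aeval z : Pz n →ₐ[ℂ] K).toRingHom.toAlgebra
  let _ : Algebra (Pz n) (icB z) := ψ.toRingHom.toAlgebra
  have hψ : (icB z).val.comp ψ = MvPolynomial.aeval z := MvPolynomial.algHom_ext fun i => by
    simp [ψ]
  have : IsScalarTower (Pz n) (icB z) K :=
    IsScalarTower.of_algebraMap_eq fun p => (AlgHom.congr_fun hψ p).symm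
  have : IsScalarTower ℂ (Pz n) (icB z) :=
    IsScalarTower.of_algebraMap_eq fun c => (ψ.commutes c).symm
  have : Algebra.FiniteType (Pz n) (icB z) := .of_restrictScalars_finiteType ℂ _ _
  have : Algebra.IsIntegral (Pz n) (icB z) := ⟨fun b => by
    rw [← isIntegral_algebraMap_iff (B := K) Subtype.val_injective]
    obtain ⟨p, p1, p2⟩ : IsIntegral (Algebra.adjoin ℂ (range z)) (b : K) := b.2
    refine ⟨p.map hz.aevalEquiv.symm.toRingEquiv.toRingHom, p1.map _, ?_⟩
    rw [eval₂_map, ← p2]
    congr 1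
    ext1 a
    obtain ⟨a, rfl⟩ := hz.aevalEquiv.surjective a
    rw [hz.algebraMap_aevalEquiv]
    exact congrArg (MvPolynomial.aeval z) (hz.aevalEquiv.symm_apply_apply a)⟩
  have : Module.Finite (Pz n) (icB z) := Algebra.IsIntegral.finite
  have hχ : φ.toRingHom.comp (algebraMap (Pz n) (icB z)) = MvPolynomial.eval ζ := by
    refine MvPolynomial.ringHom_ext (fun c => ?_) fun i => ?_
    · exact ((φ.comp ψ).commutes c).trans (MvPolynomial.eval_C c).symm
    · rw [MvPolynomial.eval_X, ← h2 i (hm i)]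
      exact congrArg φ (MvPolynomial.aeval_X _ i)
  obtain ⟨P, p1, p2, p3, p4, p5, p6⟩ := Gs.core (A := Pz n) (K := K) hz φ.toRingHom h1
    (fun b => ⟨MvPolynomial.C (φ b), (φ.comp ψ).commutes _⟩) (fun h h0 => by
      obtain ⟨b, b1, b2⟩ := h3 h h0
      have e : ε * h = ∑ i, algebraMap (Pz n) (icB z) (MvPolynomial.X i - MvPolynomial.C (ζ i)) *
          ⟨b i, b1 i⟩ := by
        apply Subtype.ext
        rw [Subalgebra.coe_mul, b2, AddSubmonoidClass.coe_finsetSum]
        refine Finset.sum_congr rfl fun i _ => ?_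
        rw [Subalgebra.coe_mul]
        congr 1
        exact ((AlgHom.congr_fun hψ _).trans (by simp)).symm
      rw [e]
      refine Ideal.sum_mem _ fun i _ => Ideal.mul_mem_right _ _ (Ideal.mem_map_of_mem _ ?_)
      rw [hχ, RingHom.mem_ker]
      simp)
  rw [hχ] at p6
  exact ⟨P, ⟨ε.2, p1, p2, p3, p4, fun b hb => p5 ⟨b, hb⟩⟩, p6⟩

end Vale.Agent.P253Y.T3
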