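import Vale.Agent.P253Y.T3.Sk
import Vale.Agent.P253Z.T2.PCX
import Vale.Agent.P253Z.T2.Conn

/-!
# P253Y, T3: holomorphic functions of polynomial growth on the affine variety are regular
-/

open scoped Manifold ContDiff Bundle ENNReal Topology
open Bundle IsManifold MeasureTheory Set Metric Filter Vale.Agent.P253.Mfd
open Vale.Agent.P272.K (Cm Chart)
open Vale.Agent.P253Z Vale.Agent.P253Z.T2
open Vale.Agent.P253Z.VS (ev)

noncomputable section

namespace Vale.Agent.P253Y.T3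

namespace Lag

open Polynomial

/-- the value of the quotient at a root -/
theorem eval_div {F : ℂ[X]} {t w : ℂ} (ht : F.IsRoot t) (hw : F.IsRoot w) :
    (F /ₘ (X - C t)).eval w = if t = w then F.derivative.eval w else 0 := by
  have e := mul_divByMonic_eq_iff_isRoot.2 ht
  split_ifs with h
  · subst h
    conv_rhs => rw [← e]
    simp
  · have := congrArg (eval w) e
    rw [hw, eval_mul, eval_sub, eval_X, eval_C] at this
    exact (mul_eq_zero.1 this).resolve_left (sub_ne_zero.2 (Ne.symm h))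

/-- interpolation over the fibres -/
theorem interp {n : ℕ} (r : ROOT n) (l : LIOU n) {P : Polynomial (Pz n)} {Q : Pz n} (hP : P.Monic)
    (hS : Sep P Q) {H : Cm n → ℂ → ℂ} {c : ℝ} {N : ℕ}
    (hb : ∀ z t, MvPolynomial.eval z Q ≠ 0 → ev P z t = 0 → ‖H z t‖ ≤ c * (1 + ‖z‖) ^ N)
    (ha : ∀ ζ w, MvPolynomial.eval ζ Q ≠ 0 → ev P ζ w = 0 → ∃ τ : Cm n → ℂ, ContinuousAt τ ζ ∧
      τ ζ = w ∧ (∀ᶠ z in 𝓝 ζ, ev P z (τ z) = 0) ∧ AnalyticAt ℂ (fun z => H z (τ z)) ζ) :
    ∃ R : Polynomial (Pz n), ∀ z w, MvPolynomial.eval z Q ≠ 0 → ev P z w = 0 →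
      MvPolynomial.eval z Q ^ 2 * ev P.derivative z w * H z w = ev R z w := by
  classical
  have hd : ∀ z, (P.map (MvPolynomial.eval z)).natDegree = P.natDegree := fun z =>
    hP.natDegree_map _
  have hr : ∀ z w, w ∈ (P.map (MvPolynomial.eval z)).roots.toFinset ↔ ev P z w = 0 := fun z w => by
    rw [Multiset.mem_toFinset, mem_roots (hP.map _).ne_zero]
    rfl
  obtain ⟨b, K, -, hK⟩ := Cn.pg_sum (Finset.range (P.natDegree + 1)) P.coeff
  have hR : ∀ j, ∃ R : Pz n, ∀ z, MvPolynomial.eval z Q ≠ 0 → MvPolynomial.eval z Q ^ 2 *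
      ∑ t ∈ (P.map (MvPolynomial.eval z)).roots.toFinset,
        H z t * (P.map (MvPolynomial.eval z) /ₘ (X - C t)).coeff j = MvPolynomial.eval z R := by
    intro j
    refine l Q _ (P.natDegree * (|c| * (2 ^ P.natDegree * b))) (N + K) (fun ζ hζ => ?_)
      fun z hz => ?_
    · obtain ⟨ρ, t, hρ, ht, h⟩ := r P Q hP hS ζ hζ
      have h0 := h ζ (mem_ball_self hρ)
      have h1 := fun i => ht i ζ (mem_ball_self hρ)
      have h2 : ∀ i, AnalyticAt ℂ (fun z => H z (t i z)) ζ := fun i => by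
        obtain ⟨τ, k1, k2, k3, k4⟩ := ha ζ _ hζ ((h0.2.2 _).2 ⟨i, rfl⟩)
        have k5 : ∀ᶠ z in 𝓝 ζ, ∀ k, k ≠ i → t k z ≠ τ z := eventually_all.2 fun k => by
          by_cases e : k = i
          · simp [e]
          · exact (((h1 k).continuousAt.sub k1).eventually_ne (sub_ne_zero.2 fun e' =>
              e (h0.2.1 k i (e'.trans k2)))).mono fun _ a _ => sub_ne_zero.1 a
        refine k4.congr ?_
        filter_upwards [k3, k5, ball_mem_nhds ζ hρ] with z a1 a2 a3
        obtain ⟨k, e⟩ := ((h z a3).2.2 _).1 a1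
        rw [← e, by_contra fun e' => a2 k e' e]
      have h3 : AnalyticAt ℂ (fun z => ∑ i, H z (t i z) * ∑ k ∈ Finset.Icc (j + 1) P.natDegree,
          t i z ^ (k - (j + 1)) * MvPolynomial.eval z (P.coeff k)) ζ :=
        Finset.analyticAt_fun_sum _ fun i _ => (h2 i).fun_mul (Finset.analyticAt_fun_sum _
          fun k _ => ((h1 i).fun_pow _).fun_mul (AnalyticOnNhd.eval_mvPolynomial _ ζ trivial))
      refine h3.congr ?_
      filter_upwards [ball_mem_nhds ζ hρ] with z hz
      refine Finset.sum_bij (fun i _ => t i z) (fun i _ => (hr z _).2 (((h z hz).2.2 _).2 ⟨i, rfl⟩))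
        (fun i _ k _ => (h z hz).2.1 i k) (fun w hw => ?_) fun i _ => ?_
      · obtain ⟨i, e⟩ := ((h z hz).2.2 _).1 ((hr z w).1 hw)
        exact ⟨i, Finset.mem_univ i, e⟩
      · simp only [coeff_divByMonic_X_sub_C, hd, coeff_map]
    · have h1 : ∀ t ∈ (P.map (MvPolynomial.eval z)).roots.toFinset,
          ‖H z t * (P.map (MvPolynomial.eval z) /ₘ (X - C t)).coeff j‖ ≤
          |c| * (1 + ‖z‖) ^ N * (2 ^ P.natDegree * (b * (1 + ‖z‖) ^ K)) := fun t ht => by
        have e := mul_divByMonic_eq_iff_isRoot.2 ((hr z t).1 ht)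
        have k := Cn.coef_le ((monic_X_sub_C t).of_mul_monic_left (e.symm ▸ hP.map _)) (hP.map _)
          (Dvd.intro_left _ e) j
        rw [hd] at k
        exact (norm_mul_le _ _).trans (mul_le_mul ((hb z t hz ((hr z t).1 ht)).trans
          (by gcongr; exact le_abs_self c)) (k.trans (mul_le_mul_of_nonneg_left
            (by simpa using hK z) (by positivity))) (norm_nonneg _) (by positivity))
      have h2 : (P.map (MvPolynomial.eval z)).roots.toFinset.card ≤ P.natDegree :=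
        (Multiset.toFinset_card_le _).trans ((card_roots' _).trans_eq (hd z))
      have h3 := (Finset.sum_nonneg fun _ _ => norm_nonneg _).trans (hK z)
      refine (norm_sum_le_of_le _ h1).trans ?_
      rw [Finset.sum_const, nsmul_eq_mul]
      exact (mul_le_mul_of_nonneg_right (Nat.cast_le.2 h2) (by positivity)).trans_eq (by ring)
  choose R hR using hR
  refine ⟨∑ j ∈ Finset.range (P.natDegree + 1), monomial j (R j), fun z w hz hw => ?_⟩
  have e1 : ∀ t, (P.map (MvPolynomial.eval z) /ₘ (X - C t)).eval w = ∑ j ∈ Finset.range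
      (P.natDegree + 1), (P.map (MvPolynomial.eval z) /ₘ (X - C t)).coeff j * w ^ j := fun t =>
    eval_eq_sum_range' (by rw [natDegree_divByMonic _ (monic_X_sub_C t), hd]; omega) w
  have e2 : ∑ t ∈ (P.map (MvPolynomial.eval z)).roots.toFinset,
      H z t * (P.map (MvPolynomial.eval z) /ₘ (X - C t)).eval w = ev P.derivative z w * H z w := by
    rw [Finset.sum_congr rfl fun t ht => by rw [eval_div ((hr z t).1 ht) hw]]
    simp [(hr z w).2 hw, ev, mul_comm]
  rw [mul_assoc, ← e2, ev]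
  simp only [Polynomial.map_sum, map_monomial, eval_finsetSum, eval_monomial, ← hR _ z hz, e1,
    Finset.mul_sum, Finset.sum_mul, mul_assoc]
  exact Finset.sum_comm

end Lag

variable {n : ℕ} {M : Type} [MetricSpace M] [ChartedSpace (Cm n) M] [IsManifold 𝓘(ℂ, Cm n) 1 M]
  [RiemannianBundle (fun x : M => TangentSpace 𝓘(ℝ, Cm n) x)] [MeasurableSpace M]

theorem lag {μ : Measure M} (a : B1a n M) (et : ET n M) (r : ROOT n) (l : LIOU n) : LAG n μ := by
  intro p F A h C N hh
  have : Nonempty M := ⟨p⟩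
  choose! X h1 h2 h3 using A.onto
  have hX : ∀ x, A.σ x ≠ 0 → X (Phi A.s₀ A.s x) (A.u x / A.v x) = x := fun x hx =>
    A.inj _ _ (h1 _ _ (A.neQ x hx) (A.root x hx)) hx (h2 _ _ (A.neQ x hx) (A.root x hx))
      (h3 _ _ (A.neQ x hx) (A.root x hx))
  have hS : Sep A.P A.Q := fun q hq => by
    simpa only [h2 _ _ hq.1 hq.2, h3 _ _ hq.1 hq.2] using A.simple _ (h1 _ _ hq.1 hq.2)
  obtain ⟨R, hR⟩ := Lag.interp r l A.monic hS (H := fun z t => h (X z t)) (c := C) (N := N)
    (fun z t hz ht => by simpa only [h2 z t hz ht] using (hh _ (h1 z t hz ht)).2)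
    fun ζ w hζ hw => by
      have hx := h1 ζ w hζ hw
      obtain ⟨e, he, hxe⟩ := (pcx a A.m A.s₀ A.s A.m_pos A.h₀.1 fun i => (A.hs i).1).1 _
        (((chj a A.m A.s₀ A.s A.m_pos A.h₀.1 fun i => (A.hs i).1).1 _).1 ⟨A.ne₀ _ hx, A.etale _ hx⟩)
      have e1 : e (X ζ w) = ζ := (he.2 _ hxe).2.trans (h2 ζ w hζ hw)
      have e2 : e.symm ζ = X ζ w := by simpa only [e1] using e.left_inv hxe
      have k1 : Tendsto e.symm (𝓝 ζ) (𝓝 (X ζ w)) := by simpa only [e1] using e.tendsto_symm hxe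
      have k2 : ∀ᶠ z in 𝓝 ζ, A.σ (e.symm z) ≠ 0 ∧ Phi A.s₀ A.s (e.symm z) = z := by
        filter_upwards [k1.eventually (et.cont _ _ _ A.hσ.1 A.hσ.1 _ hx).2,
          e.open_target.mem_nhds (e1 ▸ e.map_source hxe)] with z b1 b2
        exact ⟨b1, (he.2 _ (e.map_target b2)).2.symm.trans (e.right_inv b2)⟩
      refine ⟨fun z => A.u (e.symm z) / A.v (e.symm z), ?_, by simp only [e2, h3 ζ w hζ hw],
        k2.mono fun z b => by simpa only [b.2] using A.root _ b.1,
        (e1 ▸ (hh _ hx).1 e he.1 hxe : AnalyticAt ℂ _ ζ).congr (k2.mono fun z b => ?_)⟩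
      · exact ContinuousAt.comp (g := fun y => A.u y / A.v y)
          (e2 ▸ (et.cont _ _ _ A.hu.1 A.hv.1 _ (A.nev _ hx)).1) (e2 ▸ k1 : Tendsto _ _ _)
      · simpa only [b.2] using congrArg h (hX _ b.1).symm
  exact ⟨R, fun x hx => by simpa only [hX x hx] using hR _ _ (A.neQ x hx) (A.root x hx)⟩

end Vale.Agent.P253Y.T3
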