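import Vale.Agent.P253Y.T3.Sk

/-!
# P253Y, T3: statements for the local rings
-/

open scoped Manifold ContDiff Bundle ENNReal Topology
open Bundle IsManifold MeasureTheory Set Metric Filter Vale.Agent.P253.Mfd
open Vale.Agent.P272.K (Cm Chart)
open Vale.Agent.P253Z Vale.Agent.P253Z.T2
open Vale.Agent.P253Z.VS (ev)
open Vale.Agent.P297Z.Sf (loc)

noncomputable section

namespace Vale.Agent.P253Y.T3

/-- **GSEL**: a generator with a simple root at an unramified point -/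
def GSEL (n : ℕ) : Prop :=
  ∀ (K : Type) [Field K] [Algebra ℂ K] (z : Fin n → K), AlgebraicIndependent ℂ z →
    Algebra.FiniteType ℂ (icB z) → IsFractionRing (icB z) K →
    ∀ (φ : icB z →ₐ[ℂ] ℂ) (ζ : Cm n) (ε : icB z), φ ε = 1 →
    (∀ i (h : z i ∈ icB z), φ ⟨z i, h⟩ = ζ i) →
    (∀ h : icB z, φ h = 0 → ∃ b : Fin n → K, (∀ i, b i ∈ icB z) ∧
      (ε : K) * h = ∑ i, (z i - algebraMap ℂ K (ζ i)) * b i) →
    ∃ P, Gen z ε P ∧ ev P.derivative ζ 1 ≠ 0

/-- **GEOX**: the ring of a point is a local ring of the integral closure -/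
def GEOX (M : Type) [MetricSpace M] [ChartedSpace (Cm 2) M] : Prop :=
  ∀ (T : ℕ → Submodule ℂ (M → ℂ)), (∀ m, ∀ s ∈ T m, IsSec 2 (-m) s) →
    ∀ (K : Type) [Field K] [Algebra ℂ K] (ff : FF 2 T K) (z : Fin 2 → K) (x : M),
    (∀ i, z i ∈ ff.O x) → ∀ e : Chart 2 M, Hc e → x ∈ e.source →
    Function.Bijective (fderiv ℂ (fun w i => ff.val (z i) (e.symm w)) (e x)) →
    FiniteDimensional (IntermediateField.adjoin ℂ (range z)) K →
    Algebra.FiniteType ℂ (icB z) ∧ IsFractionRing (icB z) K ∧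
      (∃ (I : Ideal (icB z)) (hI : I.IsMaximal), ff.O x = loc (icB z) I hI.isPrime) ∧
      Res.Par (ff.O x) (z 0 - algebraMap ℂ K (ff.val (z 0) x))
        (z 1 - algebraMap ℂ K (ff.val (z 1) x))

end Vale.Agent.P253Y.T3
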