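import Vale.Agent.P253Y.T3.Geoy
import Vale.Agent.P253Y.T3.Ext
import Vale.Agent.P253Y.T3.Lag
import Vale.Agent.P253Y.T3.Algk
import Vale.Agent.P253Y.T3.Affx
import Vale.Agent.P253Y.T3.Cha
import Vale.Agent.P253Z.T2.Main
import Vale.Agent.P253Z.T2.Ffe

/-!
# P253Y, T3: every point has an affine neighbourhood
-/

open scoped Manifold ContDiff Bundle ENNReal Topology
open Bundle IsManifold MeasureTheory Set Metric Filter Vale.Agent.P253.Mfd
open Vale.Agent.P272.K (Cm Chart)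
open Vale.Agent.P253Z Vale.Agent.P253Z.T2

noncomputable section

namespace Vale.Agent.P253Y.T3

section

variable {n : ℕ} {M : Type} [MetricSpace M] [ChartedSpace (Cm n) M]
  [IsManifold 𝓘(ℂ, Cm n) 1 M] [IsManifold 𝓘(ℝ, Cm n) ∞ M]
  [RiemannianBundle (fun x : M => TangentSpace 𝓘(ℝ, Cm n) x)]
  [IsContMDiffRiemannianBundle 𝓘(ℝ, Cm n) ∞ (Cm n) (fun x : M => TangentSpace 𝓘(ℝ, Cm n) x)]
  [IsRiemannianManifold 𝓘(ℝ, Cm n) M] [CompleteSpace M] [ConnectedSpace M] [NoncompactSpace M]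
  [MeasurableSpace M] [BorelSpace M] {μ : Measure M}

theorem lagAll (c : Ctx n μ) : LAG n μ := lag (all c).a (et (all c).a) (root n) (liou n)

theorem algkAll (c : Ctx n μ) : ALGK n μ :=
  algk (all c).a (et (all c).a) (ext (all c).a (et (all c).a) (ffe (all c).a)) (lagAll c)

theorem ratAll (c : Ctx n μ) : Big.RAT n μ := rat (all c).a (algkAll c)

theorem feqAll (c : Ctx n μ) : FEQ n μ := feq_of c.npos (all c) (aff c) (algkAll c)

theorem imgAll (c : Ctx n μ) : IMG n μ :=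
  img (all c) (et (all c).a) (bnjAll c) (cut (all c).a (et (all c).a))
    (clop (root n) (et (all c).a)) (conn (root n) (liou n))

theorem affxAll (c : Ctx n μ) : AFFX n μ :=
  affx (all c).a (et (all c).a) (bnrAll c) (feqAll c) (primg (all c)) (imgAll c)

end

variable {M : Type} [MetricSpace M] [ChartedSpace (Cm 2) M]
  [IsManifold 𝓘(ℂ, Cm 2) 1 M] [IsManifold 𝓘(ℝ, Cm 2) ∞ M]
  [RiemannianBundle (fun x : M => TangentSpace 𝓘(ℝ, Cm 2) x)]
  [IsContMDiffRiemannianBundle 𝓘(ℝ, Cm 2) ∞ (Cm 2) (fun x : M => TangentSpace 𝓘(ℝ, Cm 2) x)]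
  [IsRiemannianManifold 𝓘(ℝ, Cm 2) M] [CompleteSpace M] [ConnectedSpace M] [NoncompactSpace M]
  [MeasurableSpace M] [BorelSpace M] {μ : Measure M}

/-- **T3** -/
theorem ch (c : Ctx 2 μ) (p : M) (F : Fr 2 μ p) (K : Type) [Field K] [Algebra ℂ K]
    (ff : FF 2 F.Tame K) : CH ff.O ∧ ∀ x, Res.Geo (ff.O x) ∧ Res.Two (ff.O x) :=
  ch_of (all c) (et (all c).a) (geoy (all c).a (et (all c).a) (primAll c)) (affxAll c)
    (cha (et (all c).a)) ff

end Vale.Agent.P253Y.T3
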